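import Vale.Agent.P212H52.St
import Mathlib.Combinatorics.SimpleGraph.Metric

/-! Definitions used in the statement. -/

namespace Vale.Agent.N212

open Vale.Agent.P212 Vale.Agent.P212Z Vale.Agent.P212T

section Maps

variable {X Y : Type} [MetricSpace X] [MetricSpace Y]

/-- `f` is controlled: `d(f x, f x') ≤ ρ₊(d(x, x'))`. -/
def Controlled (f : X → Y) : Prop :=
  ∀ r : ℝ, ∃ s : ℝ, ∀ x x', dist x x' ≤ r → dist (f x) (f x') ≤ s

/-- `f` is a coarse embedding: `ρ₋(d(x, x')) ≤ d(f x, f x') ≤ ρ₊(d(x, x'))` with `ρ₋ → ∞`. -/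
def CoarseEmb (f : X → Y) : Prop :=
  Controlled f ∧ ∀ s : ℝ, ∃ r : ℝ, ∀ x x', dist (f x) (f x') ≤ s → dist x x' ≤ r

end Maps

variable (X : Type) [MetricSpace X]

/-- `X` is the vertex set of a connected graph whose degrees are at most `3`, with the path
metric. -/
def IsSubcubicGraph : Prop :=
  ∃ G : SimpleGraph X, G.Connected ∧ (∀ v, (G.neighborSet v).encard ≤ 3) ∧
    ∀ u v, dist u v = (G.dist u v : ℝ)

variable [BddGeometry X]

/-- `μ^max_X ⊗ id_ℚ` is injective on `KX_0(X) ⊗ ℚ`. -/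
def MaxInj : Prop :=
  ∀ (H A : Type) [NormedAddCommGroup H] [InnerProductSpace ℂ H] [CompleteSpace H]
    [NonUnitalCStarAlgebra A] (b : HilbertBasis (X × ℕ) ℂ H) (i : Op H H → A),
    IsMaxRoe b i → ∀ μ : KX0 X →+ KC A, IsAssembly b i μ → RatInj μ

/-- `μ_X ⊗ id_ℚ` is injective on `KX_0(X) ⊗ ℚ`. -/
def RedInj : Prop :=
  ∀ (H A : Type) [NormedAddCommGroup H] [InnerProductSpace ℂ H] [CompleteSpace H]
    [NonUnitalCStarAlgebra A] (b : HilbertBasis (X × ℕ) ℂ H) (i : Op H H → A),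
    IsReducedRoe b i → ∀ μ : KX0 X →+ KC A, IsAssembly b i μ → RatInj μ

/-- `C*_max(X)` and `C*(X)` exist, and each of them has exactly one assembly map. -/
def WellPosed : Prop :=
  (∃ (H A : Type) (_ : NormedAddCommGroup H) (_ : InnerProductSpace ℂ H)
    (_ : CompleteSpace H) (_ : NonUnitalCStarAlgebra A) (b : HilbertBasis (X × ℕ) ℂ H)
    (i : Op H H → A), IsMaxRoe b i) ∧
  (∃ (H A : Type) (_ : NormedAddCommGroup H) (_ : InnerProductSpace ℂ H)
    (_ : CompleteSpace H) (_ : NonUnitalCStarAlgebra A) (b : HilbertBasis (X × ℕ) ℂ H)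
    (i : Op H H → A), IsReducedRoe b i) ∧
  ∀ (H A : Type) [NormedAddCommGroup H] [InnerProductSpace ℂ H] [CompleteSpace H]
    [NonUnitalCStarAlgebra A] (b : HilbertBasis (X × ℕ) ℂ H) (i : Op H H → A),
    IsMaxRoe b i ∨ IsReducedRoe b i → ∃! μ : KX0 X →+ KC A, IsAssembly b i μ

/-- `X` is not empty, and for `A = C*_max(X)` and `A = C*(X)` the map `μ ⊗ id_ℚ` is not injective
and the kernel of `μ` contains a linearly independent family indexed by the reals. -/
def Fails : Prop :=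
  Nonempty X ∧
  ∀ (H A : Type) [NormedAddCommGroup H] [InnerProductSpace ℂ H] [CompleteSpace H]
    [NonUnitalCStarAlgebra A] (b : HilbertBasis (X × ℕ) ℂ H) (i : Op H H → A),
    IsMaxRoe b i ∨ IsReducedRoe b i → ∀ μ : KX0 X →+ KC A, IsAssembly b i μ →
      ¬ RatInj μ ∧ BigKer μ

end Vale.Agent.N212
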