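import Vale.Agent.N212.Idx
import Vale.Agent.N212.Defs

/-! Functoriality of `KX_0` for injective controlled maps. -/

set_option linter.unusedSectionVars false

namespace Vale.Agent.N212

open Vale.Agent.P212 Vale.Agent.P212Z ZeroAtInfty Topology Filter

variable {X Y : Type} [MetricSpace X] [MetricSpace Y]

theorem exists_finset_of_isCompact [BddGeometry X] {r : ℝ} {K : Set (Rips X r)}
    (hK : IsCompact K) : ∃ B : Finset X, ∀ p ∈ K, p.t.support ⊆ B := by
  classical
  obtain ⟨T, hT⟩ := hK.elim_finite_subcover (fun x : X => {p : Rips X r | 0 < p.t x})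
    (fun x => isOpen_lt continuous_const (continuous_coord r x)) fun p _ => by
      obtain ⟨x, hx⟩ := p.support_nonempty
      exact Set.mem_iUnion.2 ⟨x, Rips.pos.1 hx⟩
  refine ⟨T.biUnion fun x => (finite_closedBall x r).toFinset, fun p hp => ?_⟩
  obtain ⟨x, hx, h⟩ := Set.mem_iUnion₂.1 (hT hp)
  exact (star_subset (ne_of_gt h)).trans (Finset.subset_biUnion_of_mem
    (fun x => (finite_closedBall x r).toFinset) hx)

/-- `ι` maps pairs at distance at most `r` to pairs at distance at most `s`. -/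
def Ctl (ι : X → Y) (r s : ℝ) : Prop := ∀ x x', dist x x' ≤ r → dist (ι x) (ι x') ≤ s

/-- The simplicial map of an injective map. -/
noncomputable def ripsMap (ι : X ↪ Y) {r s : ℝ} (h : Ctl ι r s) (p : Rips X r) : Rips Y s where
  t := p.t.embDomain ι
  nonneg y := by
    rw [Finsupp.embDomain_apply]
    split_ifs
    · exact p.nonneg _
    · exact le_rfl
  sum_one := by rw [Finsupp.sum_embDomain]; exact p.sum_one
  simplex y hy y' hy' := by
    rw [Finsupp.support_embDomain, Finset.mem_map] at hy hy'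
    obtain ⟨x, hx, rfl⟩ := hy
    obtain ⟨x', hx', rfl⟩ := hy'
    exact h x x' (p.simplex x hx x' hx')

theorem ripsMap_self (ι : X ↪ Y) {r s : ℝ} (h : Ctl ι r s) (p : Rips X r) (x : X) :
    (ripsMap ι h p).t (ι x) = p.t x := Finsupp.embDomain_apply_self _ _ _

theorem ripsMap_not (ι : X ↪ Y) {r s : ℝ} (h : Ctl ι r s) (p : Rips X r) {y : Y}
    (hy : ∀ x, ι x ≠ y) : (ripsMap ι h p).t y = 0 := by
  change p.t.embDomain ι y = 0
  rw [Finsupp.embDomain_apply, dif_neg]
  rintro ⟨x, hx⟩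
  exact hy x hx

variable [BddGeometry X] [BddGeometry Y]

/-- The simplicial map as a proper map. -/
noncomputable def ripsCo (ι : X ↪ Y) {r s : ℝ} (h : Ctl ι r s) :
    CocompactMap (Rips X r) (Rips Y s) where
  toFun := ripsMap ι h
  continuous_toFun := by
    refine (isInducing_coords s).continuous_iff.2 (continuous_pi fun y => ?_)
    by_cases hy : ∃ x, ι x = y
    · obtain ⟨x, rfl⟩ := hy
      exact (continuous_coord r x).congr fun p => (ripsMap_self ι h p x).symm
    · exact continuous_const.congr fun p => (ripsMap_not ι h p fun x hx => hy ⟨x, hx⟩).symm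
  cocompact_tendsto' := by
    refine hasBasis_cocompact.tendsto_right_iff.2 fun K hK => ?_
    obtain ⟨B, hB⟩ := exists_finset_of_isCompact hK
    filter_upwards [(isCompact_sub r (B.preimage ι ι.injective.injOn)).compl_mem_cocompact]
      with p hp hq
    refine hp fun x hx => Finset.mem_preimage.2 (hB _ hq ?_)
    rw [Finsupp.mem_support_iff, ripsMap_self]
    exact Finsupp.mem_support_iff.1 hx

theorem comap_bary_self (ι : X ↪ Y) {r s : ℝ} (h : Ctl ι r s) (x : X) :
    c0Comap (ripsCo ι h) (bary s (ι x)) = bary r x := by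
  ext p
  change ((Real.sqrt ((ripsMap ι h p).t (ι x)) : ℝ) : ℂ) = (Real.sqrt (p.t x) : ℝ)
  rw [ripsMap_self]

theorem comap_bary_not (ι : X ↪ Y) {r s : ℝ} (h : Ctl ι r s) {y : Y} (hy : ∀ x, ι x ≠ y) :
    c0Comap (ripsCo ι h) (bary s y) = 0 := by
  ext p
  change ((Real.sqrt ((ripsMap ι h p).t y) : ℝ) : ℂ) = 0
  rw [ripsMap_not ι h p hy, Real.sqrt_zero, Complex.ofReal_zero]

/-- The canonical map to the direct limit. -/
noncomputable def kxOf (X : Type) [MetricSpace X] [BddGeometry X] (r : ℝ) :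
    P212T.KK C₀(Rips X r, ℂ) →+ P212T.KX0 X :=
  AddCommGroup.DirectLimit.of (fun r : ℝ => P212T.KK C₀(Rips X r, ℂ))
    (fun _ _ h => P212T.KK.comap (c0Comap (ripsInclCo h))) r

theorem kxOf_of (r : ℝ) (c : Kas.Cyc C₀(Rips X r, ℂ)) :
    kxOf X r (Pres.of _ _ c) = P212T.KX0.cls r c := rfl

theorem kxOf_incl {r s : ℝ} (h : r ≤ s) (x : P212T.KK C₀(Rips X r, ℂ)) :
    kxOf X s (P212T.KK.comap (c0Comap (ripsInclCo h)) x) = kxOf X r x :=
  AddCommGroup.DirectLimit.of_f (f := fun _ _ h => P212T.KK.comap (c0Comap (ripsInclCo h))) h x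

theorem comap_comap {A B C : Type} [NonUnitalCStarAlgebra A] [NonUnitalCStarAlgebra B]
    [NonUnitalCStarAlgebra C] (φ : B →⋆ₙₐ[ℂ] A) (ψ : C →⋆ₙₐ[ℂ] B) (x : P212T.KK A) :
    P212T.KK.comap ψ (P212T.KK.comap φ x) = P212T.KK.comap (φ.comp ψ) x := by
  have h : (P212T.KK.comap ψ).comp (P212T.KK.comap φ) = P212T.KK.comap (φ.comp ψ) :=
    Pres.hom_ext fun c => by
      rw [AddMonoidHom.comp_apply, P212T.comap_of, P212T.comap_of, P212T.comap_of]
      rfl
  exact DFunLike.congr_fun h x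

theorem kxOf_ripsCo (ι : X ↪ Y) {r s s' : ℝ} (h : Ctl ι r s) (h' : Ctl ι r s')
    (x : P212T.KK C₀(Rips X r, ℂ)) :
    kxOf Y s (P212T.KK.comap (c0Comap (ripsCo ι h)) x) =
      kxOf Y s' (P212T.KK.comap (c0Comap (ripsCo ι h')) x) := by
  rw [← kxOf_incl (le_max_left s s'), ← kxOf_incl (le_max_right s s'), comap_comap, comap_comap]
  rfl

/-- The homomorphism induced by an injective controlled map. -/
noncomputable def kxMap (ι : X ↪ Y) (h : Controlled ι) : P212T.KX0 X →+ P212T.KX0 Y :=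
  AddCommGroup.DirectLimit.lift _ _ _
    (fun r => (kxOf Y (h r).choose).comp (P212T.KK.comap (c0Comap (ripsCo ι (h r).choose_spec))))
    fun r r' hr x => by
      rw [AddMonoidHom.comp_apply, AddMonoidHom.comp_apply, comap_comap]
      exact kxOf_ripsCo ι (fun x x' hx => (h r').choose_spec x x' (hx.trans hr))
        (h r).choose_spec x

theorem kxMap_of (ι : X ↪ Y) (h : Controlled ι) {r s : ℝ} (hs : Ctl ι r s)
    (x : P212T.KK C₀(Rips X r, ℂ)) :
    kxMap ι h (kxOf X r x) = kxOf Y s (P212T.KK.comap (c0Comap (ripsCo ι hs)) x) :=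
  (AddCommGroup.DirectLimit.lift_of _ _ _ _ _).trans (kxOf_ripsCo ι _ hs x)

theorem kxMap_cls (ι : X ↪ Y) (h : Controlled ι) {r s : ℝ} (hs : Ctl ι r s)
    (c : Kas.Cyc C₀(Rips X r, ℂ)) :
    kxMap ι h (P212T.KX0.cls r c) = P212T.KX0.cls s (c.comap (c0Comap (ripsCo ι hs))) := by
  rw [← kxOf_of, kxMap_of ι h hs, P212T.comap_of, kxOf_of]

/-- A criterion for injectivity. -/
theorem kxMap_injective (ι : X ↪ Y) (h : Controlled ι)
    (hψ : ∀ (r s : ℝ) (hs : Ctl ι r s), ∃ (s' : ℝ) (hr : r ≤ s')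
      (ψ : C₀(Rips X s', ℂ) →⋆ₙₐ[ℂ] C₀(Rips Y s, ℂ)),
      ∀ (f : C₀(Rips X s', ℂ)) (p : Rips X r), ψ f (ripsMap ι hs p) = f (ripsIncl hr p)) :
    Function.Injective (kxMap ι h) := by
  refine (injective_iff_map_eq_zero _).2 fun z hz => ?_
  induction z using AddCommGroup.DirectLimit.induction_on with
  | ih r x =>
    change kxOf X r x = 0
    obtain ⟨s, hs⟩ := h r
    have h1 : kxOf Y s (P212T.KK.comap (c0Comap (ripsCo ι hs)) x) = 0 :=
      (kxMap_of ι h hs x).symm.trans hz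
    have := P212T.directed_KKH Y
    obtain ⟨s₁, hs₁, h2⟩ := AddCommGroup.DirectLimit.of.zero_exact _ _ h1
    have hs' : Ctl ι r s₁ := fun x x' hx => (hs x x' hx).trans hs₁
    obtain ⟨s', hr, ψ, hψ'⟩ := hψ r s₁ hs'
    have h3 := congrArg (P212T.KK.comap ψ) h2
    rw [map_zero, comap_comap, comap_comap] at h3
    have h4 : (c0Comap (ripsCo ι hs)).comp ((c0Comap (ripsInclCo hs₁)).comp ψ) =
        c0Comap (ripsInclCo hr) := by
      ext f p
      exact hψ' f p
    rw [h4] at h3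
    rw [← kxOf_incl hr, h3, map_zero]

end Vale.Agent.N212
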