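import Vale.Agent.N212.Defs

/-! The path metric of a connected graph of bounded degree. -/

namespace Vale.Agent.N212

open Vale.Agent.P212

variable {V : Type} {G : SimpleGraph V}

/-- The path metric. -/
@[reducible] noncomputable def gMetric (hG : G.Connected) : MetricSpace V where
  dist u v := (G.dist u v : ℝ)
  dist_self u := by rw [SimpleGraph.dist_self, Nat.cast_zero]
  dist_comm u v := by rw [SimpleGraph.dist_comm]
  dist_triangle u v w := by exact_mod_cast hG.dist_triangle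
  eq_of_dist_eq_zero h := hG.dist_eq_zero_iff.1 (by exact_mod_cast h)

theorem walk_ind (P : ℕ → V → Prop) (hs : ∀ k v w, P k v → G.Adj v w → P (k + 1) w) {u v : V}
    (p : G.Walk u v) : ∀ k, P k u → P (k + p.length) v := by
  induction p with
  | nil => exact fun k h => h
  | cons h p ih =>
    intro k hk
    have h1 := ih (k + 1) (hs _ _ _ hk h)
    rwa [SimpleGraph.Walk.length_cons, ← add_assoc, add_right_comm]

theorem dist_ind (hG : G.Connected) (P : ℕ → V → Prop)
    (hs : ∀ k v w, P k v → G.Adj v w → P (k + 1) w) {u : V} (h : P 0 u) (v : V) :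
    P (G.dist u v) v := by
  obtain ⟨p, hp⟩ := hG.exists_walk_length_eq_dist u v
  have h1 := walk_ind P hs p 0 h
  rwa [zero_add, hp] at h1

theorem dist_adj_le (hG : G.Connected) {u v w : V} (h : G.Adj v w) :
    G.dist u w ≤ G.dist u v + 1 := by
  rw [← SimpleGraph.dist_eq_one_iff_adj.2 h]
  exact hG.dist_triangle

theorem exists_prev (hG : G.Connected) {u w : V} {n : ℕ} (h : G.dist u w ≤ n + 1) :
    ∃ v, G.dist u v ≤ n ∧ (w = v ∨ G.Adj v w) := by
  have h1 := dist_ind hG (fun k w => w = u ∨ ∃ v, G.dist u v + 1 ≤ k ∧ G.Adj v w)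
    (fun k v w hv hw => Or.inr ⟨v, ?_, hw⟩) (Or.inl rfl) w
  · rcases h1 with h1 | ⟨v, h1, h2⟩
    · exact ⟨u, by rw [SimpleGraph.dist_self]; exact Nat.zero_le _, Or.inl h1⟩
    · exact ⟨v, by omega, Or.inr h2⟩
  · rcases hv with rfl | ⟨v', h1, h2⟩
    · rw [SimpleGraph.dist_self]
      omega
    · have h3 := dist_adj_le hG (u := u) h2
      omega

theorem exists_ball_bound (hG : G.Connected) {D : ℕ} (hD : ∀ v, (G.neighborSet v).encard ≤ D)
    (n : ℕ) : ∃ N : ℕ, ∀ u, {v | G.dist u v ≤ n}.encard ≤ N := by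
  induction n with
  | zero =>
    refine ⟨1, fun u => Set.encard_le_one_iff_subsingleton.2 fun v hv w hw => ?_⟩
    exact (hG.dist_eq_zero_iff.1 (Nat.le_zero.1 hv)).symm.trans
      (hG.dist_eq_zero_iff.1 (Nat.le_zero.1 hw))
  | succ n ih =>
    obtain ⟨N, hN⟩ := ih
    refine ⟨N * (D + 1), fun u => ?_⟩
    have hfin : {v | G.dist u v ≤ n}.Finite := Set.finite_of_encard_le_coe (hN u)
    have hsub : {v | G.dist u v ≤ n + 1} ⊆ ⋃ v ∈ hfin.toFinset, insert v (G.neighborSet v) := by
      intro w hw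
      obtain ⟨v, h1, h2⟩ := exists_prev hG hw
      exact Set.mem_iUnion₂.2 ⟨v, hfin.mem_toFinset.2 h1, h2⟩
    refine (Set.encard_le_encard hsub).trans ((hfin.toFinset.set_encard_biUnion_le _).trans ?_)
    have h1 : ∀ v ∈ hfin.toFinset, (insert v (G.neighborSet v)).encard ≤ (D : ℕ∞) + 1 :=
      fun v _ => (Set.encard_insert_le _ _).trans (add_le_add (hD v) le_rfl)
    refine (Finset.sum_le_sum h1).trans ?_
    rw [Finset.sum_const, nsmul_eq_mul]
    push_cast
    refine mul_le_mul' ?_ le_rfl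
    have h5 := hN u
    rwa [hfin.encard_eq_coe_toFinset_card] at h5

theorem gBdd (hG : G.Connected) {D : ℕ} (hD : ∀ v, (G.neighborSet v).encard ≤ D) :
    @BddGeometry V (gMetric hG) := by
  let _ := gMetric hG
  refine ⟨fun R => ?_⟩
  obtain ⟨N, hN⟩ := exists_ball_bound hG hD ⌊R⌋₊
  refine ⟨N, fun u => (Set.encard_le_encard fun v hv => ?_).trans (hN u)⟩
  have h1 : (G.dist v u : ℝ) ≤ R := hv
  rw [SimpleGraph.dist_comm] at h1
  exact Nat.le_floor h1

theorem gUnif (hG : G.Connected) : @UnifDiscrete V (gMetric hG) := by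
  let _ := gMetric hG
  refine ⟨1, one_pos, fun u v h => ?_⟩
  have h1 : G.dist u v ≠ 0 := fun h1 => h (hG.dist_eq_zero_iff.1 h1)
  change (1 : ℝ) ≤ (G.dist u v : ℝ)
  exact_mod_cast Nat.one_le_iff_ne_zero.2 h1

end Vale.Agent.N212
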