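import Vale.Agent.N212.Func

/-! Partially defined retractions of Rips complexes which push a part of the space to infinity. -/

set_option linter.unusedSectionVars false

namespace Vale.Agent.N212

open Vale.Agent.P212 Vale.Agent.P212Z ZeroAtInfty Topology Filter

section Open

variable {P Q : Type} [TopologicalSpace P] [T2Space P] [TopologicalSpace Q] {U : Set P}

open Classical in
theorem exists_small (r : U → Q)
    (hp : ∀ K : Set Q, IsCompact K → ∃ C : Set P, IsCompact C ∧ C ⊆ U ∧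
      ∀ p : U, r p ∈ K → p.1 ∈ C) (f : C₀(Q, ℂ)) {ε : ℝ} (hε : 0 < ε) :
    ∃ C : Set P, IsCompact C ∧ C ⊆ U ∧ ∀ p, p ∉ C →
      dist (if h : p ∈ U then f (r ⟨p, h⟩) else 0) 0 < ε := by
  have h1 := Metric.tendsto_nhds.1 f.zero_at_infty' ε hε
  obtain ⟨K, hK, h2⟩ := mem_cocompact.1 h1
  obtain ⟨C, hC, h3, h4⟩ := hp K hK
  refine ⟨C, hC, h3, fun p hpC => ?_⟩
  split_ifs with h
  · exact h2 fun h5 => hpC (h4 ⟨p, h⟩ h5)
  · rwa [dist_self]

open Classical in
/-- Pull back along a proper map defined on an open subset, followed by extension by zero. -/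
noncomputable def openPull (hU : IsOpen U) (r : U → Q) (hr : Continuous r)
    (hp : ∀ K : Set Q, IsCompact K → ∃ C : Set P, IsCompact C ∧ C ⊆ U ∧
      ∀ p : U, r p ∈ K → p.1 ∈ C) : C₀(Q, ℂ) →⋆ₙₐ[ℂ] C₀(P, ℂ) where
  toFun f :=
    { toFun := fun p => if h : p ∈ U then f (r ⟨p, h⟩) else 0
      continuous_toFun := by
        refine continuous_iff_continuousAt.2 fun p => ?_
        by_cases h : p ∈ U
        · refine ContinuousOn.continuousAt ?_ (hU.mem_nhds h)
          rw [continuousOn_iff_continuous_domRestrict]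
          refine (f.continuous.comp hr).congr fun q => ?_
          change f (r q) = if h : q.1 ∈ U then f (r ⟨q.1, h⟩) else 0
          rw [dif_pos q.2]
        · rw [ContinuousAt, dif_neg h]
          refine Metric.tendsto_nhds.2 fun ε hε => ?_
          obtain ⟨C, hC, h3, h4⟩ := exists_small r hp f hε
          filter_upwards [hC.isClosed.isOpen_compl.mem_nhds fun h5 => h (h3 h5)] with q hq
          exact h4 q hq
      zero_at_infty' := by
        refine Metric.tendsto_nhds.2 fun ε hε => ?_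
        obtain ⟨C, hC, -, h4⟩ := exists_small r hp f hε
        filter_upwards [hC.compl_mem_cocompact] with q hq
        exact h4 q hq }
  map_smul' c f := by
    ext p
    change (if h : p ∈ U then c • f (r ⟨p, h⟩) else 0) =
      c • (if h : p ∈ U then f (r ⟨p, h⟩) else 0)
    split_ifs
    · rfl
    · rw [smul_zero]
  map_zero' := by
    ext p
    change (if h : p ∈ U then (0 : ℂ) else 0) = 0
    split_ifs <;> rfl
  map_add' f g := by
    ext p
    change (if h : p ∈ U then f (r ⟨p, h⟩) + g (r ⟨p, h⟩) else 0) =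
      (if h : p ∈ U then f (r ⟨p, h⟩) else 0) + (if h : p ∈ U then g (r ⟨p, h⟩) else 0)
    split_ifs
    · rfl
    · rw [add_zero]
  map_mul' f g := by
    ext p
    change (if h : p ∈ U then f (r ⟨p, h⟩) * g (r ⟨p, h⟩) else 0) =
      (if h : p ∈ U then f (r ⟨p, h⟩) else 0) * (if h : p ∈ U then g (r ⟨p, h⟩) else 0)
    split_ifs
    · rfl
    · rw [mul_zero]
  map_star' f := by
    ext p
    change (if h : p ∈ U then star (f (r ⟨p, h⟩)) else 0) =
      star (if h : p ∈ U then f (r ⟨p, h⟩) else 0)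
    split_ifs
    · rfl
    · rw [star_zero]

theorem openPull_apply (hU : IsOpen U) (r : U → Q) (hr : Continuous r)
    (hp : ∀ K : Set Q, IsCompact K → ∃ C : Set P, IsCompact C ∧ C ⊆ U ∧
      ∀ p : U, r p ∈ K → p.1 ∈ C) (f : C₀(Q, ℂ)) {p : P} (h : p ∈ U) :
    openPull hU r hr hp f p = f (r ⟨p, h⟩) := dif_pos h

end Open

section Hat

/-- The clamp function. -/
noncomputable def clamp (u : ℝ) : ℝ := max 0 (min 1 u)

theorem clamp_of_le {u : ℝ} (h : u ≤ 0) : clamp u = 0 :=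
  max_eq_left ((min_le_right _ _).trans h)

theorem clamp_of_ge {u : ℝ} (h : 1 ≤ u) : clamp u = 1 := by
  rw [clamp, min_eq_left h, max_eq_right zero_le_one]

theorem clamp_mono {u v : ℝ} (h : u ≤ v) : clamp u ≤ clamp v :=
  max_le_max le_rfl (min_le_min le_rfl h)

theorem continuous_clamp : Continuous clamp :=
  continuous_const.max (continuous_const.min continuous_id)

/-- The barycentric coordinates on a ray. -/
noncomputable def wt (τ : ℝ) (k : ℕ) : ℝ := clamp (τ + 1 - k) - clamp (τ + 1 - (k + 1 : ℕ))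

theorem wt_nonneg (τ : ℝ) (k : ℕ) : 0 ≤ wt τ k :=
  sub_nonneg.2 (clamp_mono (by push_cast; linarith))

theorem wt_ne {τ : ℝ} {k : ℕ} (h : wt τ k ≠ 0) : (k : ℝ) < τ + 1 ∧ τ < k + 1 := by
  constructor
  · by_contra h1
    refine h ?_
    rw [wt, clamp_of_le (by linarith), clamp_of_le (by push_cast; linarith), sub_self]
  · by_contra h1
    refine h ?_
    rw [wt, clamp_of_ge (by linarith), clamp_of_ge (by push_cast; linarith), sub_self]

theorem wt_zero : wt 0 0 = 1 := by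
  rw [wt, clamp_of_ge (by norm_num), clamp_of_le (by norm_num), sub_zero]

theorem sum_wt {τ : ℝ} (h : 0 ≤ τ) {N : ℕ} (hN : τ + 1 ≤ N) :
    ∑ k ∈ Finset.range N, wt τ k = 1 := by
  rw [show (∑ k ∈ Finset.range N, wt τ k) = clamp (τ + 1 - (0 : ℕ)) - clamp (τ + 1 - N) from
    Finset.sum_range_sub' (fun k : ℕ => clamp (τ + 1 - k)) N,
    clamp_of_ge (by push_cast; linarith), clamp_of_le (by linarith), sub_zero]

theorem continuous_wt (k : ℕ) : Continuous fun τ => wt τ k :=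
  (continuous_clamp.comp (by fun_prop)).sub (continuous_clamp.comp (by fun_prop))

end Hat

variable {X Y : Type} [MetricSpace X] [MetricSpace Y]

/-- The data of a partial retraction at scale `s`: the points of `M` are sent to infinity, and
`g y` is a ray starting at the image of `y`. -/
structure Retr (ι : X → Y) (s s' : ℝ) where
  M : Set Y
  g : Y × ℕ → X
  notMem : ∀ x, ι x ∉ M
  left : ∀ x, g (ι x, 0) = x
  near : ∀ y y', y ∉ M → y' ∉ M → dist y y' ≤ s → dist (g (y, 0)) (g (y', 0)) ≤ s'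
  far : ∀ y y' v, y ∉ M → y' ∉ M → v ∈ M → dist y v ≤ s → dist y' v ≤ s → dist y y' ≤ s →
    ∀ j j', j ≤ j' + 1 → j' ≤ j + 1 → dist (g (y, j)) (g (y', j')) ≤ s'
  fin : ∀ x, {z : Y × ℕ | (z.1 ∉ M ∧ (z.2 = 0 ∨ M.Nonempty)) ∧ g z = x}.Finite

variable {ι : X → Y} {s s' : ℝ} (D : Retr ι s s')

open Classical in
/-- The mass outside `M`. -/
noncomputable def Retr.a (p : Rips Y s) : ℝ := ∑ y ∈ p.t.support, if y ∈ D.M then 0 else p.t y

open Classical in
theorem Retr.a_eq (p : Rips Y s) {B : Finset Y} (h : p.t.support ⊆ B) :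
    D.a p = ∑ y ∈ B, if y ∈ D.M then 0 else p.t y := by
  refine Finset.sum_subset h fun y _ hy => ?_
  rw [Finsupp.notMem_support_iff.1 hy, ite_self]

theorem Retr.a_le (p : Rips Y s) : D.a p ≤ 1 := by
  rw [← p.sum_eq subset_rfl]
  refine Finset.sum_le_sum fun y _ => ?_
  split_ifs
  · exact p.nonneg y
  · exact le_rfl

theorem Retr.a_one (p : Rips Y s) (h : ∀ y ∈ p.t.support, y ∉ D.M) : D.a p = 1 := by
  rw [← p.sum_eq subset_rfl]
  exact Finset.sum_congr rfl fun y hy => if_neg (h y hy)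

/-- The time along the rays. -/
noncomputable def Retr.τ (p : Rips Y s) : ℝ := (D.a p)⁻¹ - 1

theorem Retr.τ_nonneg {p : Rips Y s} (h : 0 < D.a p) : 0 ≤ D.τ p :=
  sub_nonneg.2 ((one_le_inv₀ h).2 (D.a_le p))

open Classical in
/-- The weights. -/
noncomputable def Retr.wf (p : Rips Y s) (z : Y × ℕ) : ℝ :=
  (if z.1 ∈ D.M then 0 else p.t z.1) * (D.a p)⁻¹ * wt (D.τ p) z.2

theorem Retr.wf_ne {p : Rips Y s} {z : Y × ℕ} (h : D.wf p z ≠ 0) :
    z.1 ∉ D.M ∧ z.1 ∈ p.t.support ∧ (z.2 : ℝ) < D.τ p + 1 ∧ D.τ p < z.2 + 1 := by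
  have h1 := left_ne_zero_of_mul (left_ne_zero_of_mul h)
  have h2 : z.1 ∉ D.M := fun h3 => h1 (if_pos h3)
  rw [if_neg h2] at h1
  exact ⟨h2, Finsupp.mem_support_iff.2 h1, wt_ne (right_ne_zero_of_mul h)⟩

theorem Retr.wf_ne' {p : Rips Y s} {z : Y × ℕ} (h : D.wf p z ≠ 0) :
    z.1 ∉ D.M ∧ (z.2 = 0 ∨ D.M.Nonempty) := by
  obtain ⟨h1, -, h2, -⟩ := D.wf_ne h
  refine ⟨h1, or_iff_not_imp_right.2 fun h3 => ?_⟩
  rw [Retr.τ, D.a_one p fun y _ hy => h3 ⟨y, hy⟩, inv_one, sub_self, zero_add,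
    Nat.cast_lt_one] at h2
  exact h2

theorem Retr.wf_nonneg {p : Rips Y s} (h : 0 < D.a p) (z : Y × ℕ) : 0 ≤ D.wf p z := by
  refine mul_nonneg (mul_nonneg ?_ (inv_pos.2 h).le) (wt_nonneg _ _)
  split_ifs
  · exact le_rfl
  · exact p.nonneg _

/-- The weights, as a finitely supported function. -/
noncomputable def Retr.w (p : Rips Y s) : Y × ℕ →₀ ℝ :=
  Finsupp.onFinset (p.t.support ×ˢ Finset.range ⌈D.τ p + 1⌉₊) (D.wf p) fun z hz => by
    obtain ⟨-, h1, h2, -⟩ := D.wf_ne hz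
    exact Finset.mem_product.2 ⟨h1, Finset.mem_range.2 (Nat.lt_ceil.2 h2)⟩

theorem Retr.w_apply (p : Rips Y s) (z : Y × ℕ) : D.w p z = D.wf p z := rfl

theorem Retr.sum_w {p : Rips Y s} (h : 0 < D.a p) : ((D.w p).sum fun _ c => c) = 1 := by
  classical
  rw [Retr.w, Finsupp.sum_onFinset _ _ _ _ (fun _ _ => rfl), Finset.sum_product]
  simp only [Retr.wf]
  simp only [← Finset.mul_sum, sum_wt (D.τ_nonneg h) (Nat.le_ceil _), mul_one, ← Finset.sum_mul]
  exact mul_inv_cancel₀ h.ne'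

theorem Retr.push_apply (p : Rips Y s) (x : X) :
    (D.w p).mapDomain D.g x = ∑ z ∈ (D.fin x).toFinset, D.wf p z := by
  classical
  rw [Finsupp.mapDomain, Finsupp.sum_apply, Finsupp.sum]
  simp only [Finsupp.single_apply]
  rw [← Finset.sum_filter]
  refine Finset.sum_subset (fun z hz => ?_) fun z hz hz' => ?_
  · obtain ⟨h1, h2⟩ := Finset.mem_filter.1 hz
    exact (D.fin x).mem_toFinset.2 ⟨D.wf_ne' (Finsupp.mem_support_iff.1 h1), h2⟩
  · by_contra h
    exact hz' (Finset.mem_filter.2 ⟨Finsupp.mem_support_iff.2 h,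
      ((D.fin x).mem_toFinset.1 hz).2⟩)

theorem Retr.mem_push {p : Rips Y s} {x : X} (h : x ∈ ((D.w p).mapDomain D.g).support) :
    ∃ z, D.wf p z ≠ 0 ∧ D.g z = x := by
  classical
  obtain ⟨z, hz, rfl⟩ := Finset.mem_image.1 (Finsupp.mapDomain_support h)
  exact ⟨z, Finsupp.mem_support_iff.1 hz, rfl⟩

/-- The partial retraction. -/
noncomputable def Retr.r (p : {p : Rips Y s | 0 < D.a p}) : Rips X s' where
  t := (D.w p.1).mapDomain D.g
  nonneg x := by
    rw [D.push_apply]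
    exact Finset.sum_nonneg fun z _ => D.wf_nonneg p.2 z
  sum_one := by
    rw [Finsupp.sum_mapDomain_index (fun _ => rfl) (fun _ _ _ => rfl)]
    exact D.sum_w p.2
  simplex x hx x' hx' := by
    obtain ⟨⟨y, j⟩, hz, rfl⟩ := D.mem_push hx
    obtain ⟨⟨y', j'⟩, hz', rfl⟩ := D.mem_push hx'
    obtain ⟨a1, a2, a3, a4⟩ := D.wf_ne hz
    obtain ⟨b1, b2, b3, b4⟩ := D.wf_ne hz'
    dsimp only at a1 a2 a3 a4 b1 b2 b3 b4
    by_cases h : ∃ v ∈ p.1.t.support, v ∈ D.M
    · obtain ⟨v, hv, hv'⟩ := h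
      refine D.far y y' v a1 b1 hv' (p.1.simplex _ a2 _ hv) (p.1.simplex _ b2 _ hv)
        (p.1.simplex _ a2 _ b2) j j' ?_ ?_
      · have h1 : (j : ℝ) < ((j' + 2 : ℕ) : ℝ) := by push_cast; linarith
        have h2 := Nat.cast_lt.1 h1
        omega
      · have h1 : (j' : ℝ) < ((j + 2 : ℕ) : ℝ) := by push_cast; linarith
        have h2 := Nat.cast_lt.1 h1
        omega
    · have h1 : D.τ p.1 = 0 := by
        rw [Retr.τ, D.a_one p.1 fun y hy h2 => h ⟨y, hy, h2⟩, inv_one, sub_self]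
      rw [h1, zero_add, Nat.cast_lt_one] at a3 b3
      rw [a3, b3]
      exact D.near y y' a1 b1 (p.1.simplex _ a2 _ b2)

variable [BddGeometry X] [BddGeometry Y]

theorem Retr.continuous_a : Continuous D.a := by
  classical
  refine continuous_iff_continuousAt.2 fun p => ?_
  obtain ⟨y₀, hy₀⟩ := p.support_nonempty
  have h1 : Continuous fun q : Rips Y s =>
      ∑ y ∈ (finite_closedBall y₀ s).toFinset, if y ∈ D.M then 0 else q.t y := by
    refine continuous_finsetSum _ fun y _ => ?_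
    split_ifs
    · exact continuous_const
    · exact continuous_coord s y
  refine h1.continuousAt.congr ?_
  filter_upwards [(isOpen_lt continuous_const (continuous_coord s y₀)).mem_nhds
    (Rips.pos.1 hy₀)] with q hq
  exact (D.a_eq q (star_subset (ne_of_gt hq))).symm

theorem Retr.continuous_r : Continuous D.r := by
  classical
  refine (isInducing_coords s').continuous_iff.2 (continuous_pi fun x => ?_)
  have h1 : Continuous fun p : {p : Rips Y s | 0 < D.a p} => (D.a p.1)⁻¹ :=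
    (D.continuous_a.comp continuous_subtype_val).inv₀ fun p => ne_of_gt p.2
  have h2 : Continuous fun p : {p : Rips Y s | 0 < D.a p} =>
      ∑ z ∈ (D.fin x).toFinset, D.wf p.1 z := by
    refine continuous_finsetSum _ fun z _ => Continuous.mul (Continuous.mul ?_ h1) ?_
    · split_ifs
      · exact continuous_const
      · exact (continuous_coord s z.1).comp continuous_subtype_val
    · exact (continuous_wt z.2).comp (h1.sub continuous_const)
  exact h2.congr fun p => (D.push_apply p.1 x).symm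

theorem Retr.proper (K : Set (Rips X s')) (hK : IsCompact K) :
    ∃ C : Set (Rips Y s), IsCompact C ∧ C ⊆ {p | 0 < D.a p} ∧
      ∀ p : {p : Rips Y s | 0 < D.a p}, D.r p ∈ K → p.1 ∈ C := by
  classical
  obtain ⟨B, hB⟩ := exists_finset_of_isCompact hK
  obtain ⟨F, hF⟩ : ∃ F : Finset (Y × ℕ), ∀ x ∈ B, ∀ z,
      z.1 ∉ D.M ∧ (z.2 = 0 ∨ D.M.Nonempty) → D.g z = x → z ∈ F :=
    ⟨B.biUnion fun x => (D.fin x).toFinset, fun x hx z h1 h2 =>
      Finset.mem_biUnion.2 ⟨x, hx, (D.fin x).mem_toFinset.2 ⟨h1, h2⟩⟩⟩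
  obtain ⟨Λ, hΛ⟩ : ∃ Λ : ℕ, ∀ z ∈ F, z.2 ≤ Λ :=
    ⟨F.sup Prod.snd, fun z hz => Finset.le_sup (f := Prod.snd) hz⟩
  obtain ⟨B', hB'⟩ : ∃ B' : Finset Y, ∀ z ∈ F, (finite_closedBall z.1 s).toFinset ⊆ B' :=
    ⟨F.biUnion fun z => (finite_closedBall z.1 s).toFinset, fun z hz =>
      Finset.subset_biUnion_of_mem (fun z : Y × ℕ => (finite_closedBall z.1 s).toFinset) hz⟩
  have hpos : (0 : ℝ) < (Λ : ℝ) + 2 := by positivity
  refine ⟨{p | p.t.support ⊆ B'} ∩ {p | ((Λ : ℝ) + 2)⁻¹ ≤ D.a p}, (isCompact_sub s _).inter_right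
      (isClosed_le continuous_const D.continuous_a),
    fun p hp => lt_of_lt_of_le (inv_pos.2 hpos) hp.2, fun p hp => ?_⟩
  obtain ⟨x, hx⟩ := (D.r p).support_nonempty
  obtain ⟨z, hz, h1⟩ := D.mem_push hx
  obtain ⟨-, a2, -, a4⟩ := D.wf_ne hz
  have h2 : z ∈ F := hF x (hB _ hp hx) z (D.wf_ne' hz) h1
  refine ⟨(star_subset (Finsupp.mem_support_iff.1 a2)).trans (hB' z h2), ?_⟩
  have h3 : (z.2 : ℝ) ≤ Λ := Nat.cast_le.2 (hΛ z h2)
  have h4 : (D.a p.1)⁻¹ ≤ (Λ : ℝ) + 2 := by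
    rw [Retr.τ] at a4
    linarith
  have h5 : 0 < D.a p.1 := p.2
  exact (inv_le_comm₀ hpos h5).2 h4

theorem exists_psi (ι : X ↪ Y) {r s s' : ℝ} (hs : Ctl ι r s) (hr : r ≤ s') (D : Retr ι s s') :
    ∃ ψ : C₀(Rips X s', ℂ) →⋆ₙₐ[ℂ] C₀(Rips Y s, ℂ),
      ∀ (f : C₀(Rips X s', ℂ)) (p : Rips X r), ψ f (ripsMap ι hs p) = f (ripsIncl hr p) := by
  have : T2Space (Rips Y s) := (isEmbedding_coords s).t2Space
  refine ⟨openPull (isOpen_lt continuous_const D.continuous_a) D.r D.continuous_r D.proper,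
    fun f p => ?_⟩
  have h1 : D.a (ripsMap ι hs p) = 1 := D.a_one _ fun y hy => by
    obtain ⟨x, -, rfl⟩ := Finset.mem_map.1 hy
    exact D.notMem x
  have h2 : ripsMap ι hs p ∈ {p : Rips Y s | 0 < D.a p} := by
    change 0 < D.a _
    rw [h1]
    exact one_pos
  have h3 : D.τ (ripsMap ι hs p) = 0 := by rw [Retr.τ, h1, inv_one, sub_self]
  rw [openPull_apply _ _ _ _ _ h2]
  refine congrArg f (Rips.ext' ?_)
  have h4 : D.w (ripsMap ι hs p) = p.t.mapDomain fun x => (ι x, 0) := by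
    ext z
    by_cases hz : z ∈ Set.range fun x => (ι x, 0)
    · obtain ⟨x, rfl⟩ := hz
      rw [Finsupp.mapDomain_apply (fun a b h => ι.injective (congrArg Prod.fst h)), D.w_apply,
        Retr.wf, if_neg (D.notMem x), h1, h3, wt_zero, ripsMap_self, inv_one, mul_one, mul_one]
    · rw [Finsupp.mapDomain_of_notMem_range _ _ hz, D.w_apply]
      by_contra h5
      obtain ⟨-, a2, a3, -⟩ := D.wf_ne h5
      obtain ⟨x, -, hx⟩ := Finset.mem_map.1 a2
      rw [h3, zero_add, Nat.cast_lt_one] at a3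
      exact hz ⟨x, Prod.ext hx a3.symm⟩
  change (D.w (ripsMap ι hs p)).mapDomain D.g = p.t
  rw [h4, ← Finsupp.mapDomain_comp]
  have h5 : (D.g ∘ fun x => (ι x, 0)) = id := funext D.left
  rw [h5, Finsupp.mapDomain_id]

/-- Enlarging the second scale. -/
def Retr.mono {s'' : ℝ} (h : s' ≤ s'') : Retr ι s s'' :=
  ⟨D.M, D.g, D.notMem, D.left, fun y y' a b c => (D.near y y' a b c).trans h,
    fun y y' v a b c d e f j j' k l => (D.far y y' v a b c d e f j j' k l).trans h, D.fin⟩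

theorem kxMap_injective_of_retr (ι : X ↪ Y) (h : Controlled ι)
    (hD : ∀ s, ∃ s', Nonempty (Retr ι s s')) : Function.Injective (kxMap ι h) := by
  refine kxMap_injective ι h fun r s hs => ?_
  obtain ⟨s', ⟨D⟩⟩ := hD s
  exact ⟨max r s', le_max_left _ _, exists_psi ι hs _ (D.mono (le_max_right _ _))⟩

theorem kxMap_injective_of_retract (ι : X ↪ Y) (h : Controlled ι) {ρ : Y → X}
    (hρ : Controlled ρ) (hl : ∀ x, ρ (ι x) = x) (hf : ∀ x, (ρ ⁻¹' {x}).Finite) :
    Function.Injective (kxMap ι h) := by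
  refine kxMap_injective_of_retr ι h fun s => ?_
  obtain ⟨s', hs'⟩ := hρ s
  refine ⟨s', ⟨⟨∅, fun z => ρ z.1, fun _ h => h, hl, fun y y' _ _ h => hs' y y' h,
    fun _ _ _ _ _ h => h.elim, fun x => ((hf x).prod (Set.finite_singleton 0)).subset ?_⟩⟩⟩
  rintro z ⟨⟨-, h1 | ⟨_, h1⟩⟩, h2⟩
  · exact ⟨h2, h1⟩
  · exact h1.elim

end Vale.Agent.N212
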