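import Vale.Agent.N212.GMet
import Vale.Agent.N212.Retr

/-! A graph of degree at most three attached to a space of bounded geometry. -/

set_option linter.unusedSectionVars false

namespace Vale.Agent.N212

open Vale.Agent.P212 Vale.Agent.P212Z

variable {W : Type} [MetricSpace W]

/-- Numbering data: `ν x` numbers the points as seen from `x`, and `lam` is a sequence of
lengths with growing gaps. -/
structure Num (W : Type) [MetricSpace W] where
  ν : W → W → ℕ
  inj : ∀ x, Function.Injective (ν x)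
  lam : ℕ → ℕ
  lt : ∀ x y, ν x y < lam ⌈dist x y⌉₊
  gap : ∀ k, lam k + k + 2 ≤ lam (k + 1)

theorem exists_num [BddGeometry W] : Nonempty (Num W) := by
  have h1 : ∀ k : ℕ, ∃ N : ℕ, ∀ x : W, ∃ e : W → ℕ, (∀ y, dist x y ≤ k → e y < N) ∧
      ∀ y y', dist x y ≤ k → dist x y' ≤ k → e y = e y' → y = y' := by
    intro k
    obtain ⟨N, hN⟩ := BddGeometry.bdd (X := W) k
    refine ⟨N, fun x => ?_⟩
    have h2 : (Metric.closedBall x (k : ℝ)).encard ≤ (Finset.range N : Set ℕ).encard := by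
      rw [Set.encard_coe_eq_coe_finsetCard, Finset.card_range]
      exact hN x
    obtain ⟨e, h3, h4⟩ := (finite_closedBall x k).exists_injOn_of_encard_le h2
    exact ⟨e, fun y hy => Finset.mem_range.1 (h3 (Metric.mem_closedBall'.2 hy)),
      fun y y' hy hy' => h4 (Metric.mem_closedBall'.2 hy) (Metric.mem_closedBall'.2 hy')⟩
  choose N e he using h1
  let lam : ℕ → ℕ := fun k => ∑ j ∈ Finset.range (k + 1), (Nat.pair j (N j) + j + 1)
  refine ⟨⟨fun x y => Nat.pair ⌈dist x y⌉₊ (e ⌈dist x y⌉₊ x y), fun x y y' h => ?_, lam,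
    fun x y => ?_, fun k => ?_⟩⟩
  · obtain ⟨h1, h2⟩ := Nat.pair_eq_pair.1 h
    rw [← h1] at h2
    exact (he _ x).2 y y' (Nat.le_ceil _) (h1 ▸ Nat.le_ceil _) h2
  · have h1 := Nat.pair_lt_pair_right ⌈dist x y⌉₊ ((he _ x).1 y (Nat.le_ceil _))
    simp only [lam, Finset.sum_range_succ]
    omega
  · simp only [lam, Finset.sum_range_succ _ (k + 1)]
    omega

variable (P : Num W)

theorem Num.mono : Monotone P.lam := monotone_nat_of_le_succ fun k => by
  have := P.gap k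
  omega

theorem Num.le_lam (k : ℕ) : k ≤ P.lam k := by
  cases k with
  | zero => exact Nat.zero_le _
  | succ k =>
    have := P.gap k
    omega

/-- The depth at which the trees over `x` and `y` are joined. -/
noncomputable def Num.L (x y : W) : ℕ := P.lam ⌈dist x y⌉₊

theorem Num.L_comm (x y : W) : P.L x y = P.L y x := by rw [Num.L, Num.L, dist_comm]

theorem Num.dist_le_L (x y : W) : dist x y ≤ P.L x y :=
  (Nat.le_ceil _).trans (Nat.cast_le.2 (P.le_lam _))

/-- The vertices: over each `x` a ray, and for each `y` a branch which leaves the ray at depth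
`ν x y` and ends at depth `L x y`. -/
@[ext] structure Vx where
  x : W
  o : Option W
  i : ℕ
  ok : ∀ y, o = some y → P.ν x y < i ∧ i ≤ P.L x y

variable {P}

/-- `v` is the parent of `u`. -/
def Up (u v : Vx P) : Prop :=
  u.x = v.x ∧ u.i = v.i + 1 ∧ (u.o = v.o ∨ (v.o = none ∧ ∃ y, u.o = some y ∧ P.ν u.x y = v.i))

/-- The ends of two branches are joined. -/
def Mid (u v : Vx P) : Prop :=
  u.o = some v.x ∧ v.o = some u.x ∧ u.i = P.L u.x v.x ∧ v.i = P.L u.x v.x

theorem Mid.symm {u v : Vx P} (h : Mid u v) : Mid v u :=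
  ⟨h.2.1, h.1, h.2.2.2.trans (P.L_comm _ _), h.2.2.1.trans (P.L_comm _ _)⟩

variable (P) in
/-- The graph. -/
def gr : SimpleGraph (Vx P) := SimpleGraph.fromRel fun u v => Up u v ∨ Mid u v

theorem adj_cases {u v : Vx P} (h : (gr P).Adj u v) : Up u v ∨ Up v u ∨ Mid u v := by
  rcases h.2 with (h | h) | h | h
  · exact Or.inl h
  · exact Or.inr (Or.inr h)
  · exact Or.inr (Or.inl h)
  · exact Or.inr (Or.inr h.symm)

theorem Up.adj {u v : Vx P} (h : Up u v) : (gr P).Adj u v :=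
  ⟨fun e => by
    have h1 := h.2.1
    rw [e] at h1
    omega, Or.inl (Or.inl h)⟩

theorem deg_le (u : Vx P) : ((gr P).neighborSet u).encard ≤ 3 := by
  have hsub : (gr P).neighborSet u ⊆ ({v | Up u v} ∪ {v | Up v u ∧ v.o = u.o}) ∪
      {v | (Up v u ∧ v.o ≠ u.o) ∨ Mid u v} := by
    intro v hv
    rcases adj_cases hv with h | h | h
    · exact Or.inl (Or.inl h)
    · by_cases h1 : v.o = u.o
      · exact Or.inl (Or.inr ⟨h, h1⟩)
      · exact Or.inr (Or.inl ⟨h, h1⟩)
    · exact Or.inr (Or.inr h)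
  have h1 : {v | Up u v}.Subsingleton := by
    rintro v ⟨a1, a2, a3⟩ w ⟨b1, b2, b3⟩
    refine Vx.ext (a1.symm.trans b1) ?_ (by omega)
    rcases a3 with a3 | ⟨a3, y, a4, a5⟩ <;> rcases b3 with b3 | ⟨b3, z, b4, b5⟩
    · exact a3.symm.trans b3
    · have h := (v.ok z (a3.symm.trans b4)).1
      rw [← a1] at h
      omega
    · have h := (w.ok y (b3.symm.trans a4)).1
      rw [← b1] at h
      omega
    · exact a3.trans b3.symm
  have h2 : {v | Up v u ∧ v.o = u.o}.Subsingleton := by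
    rintro v ⟨⟨a1, a2, -⟩, a3⟩ w ⟨⟨b1, b2, -⟩, b3⟩
    exact Vx.ext (a1.trans b1.symm) (a3.trans b3.symm) (a2.trans b2.symm)
  have h3 : {v | (Up v u ∧ v.o ≠ u.o) ∨ Mid u v}.Subsingleton := by
    rintro v (⟨⟨a1, a2, a3⟩, a4⟩ | a) w (⟨⟨b1, b2, b3⟩, b4⟩ | b)
    · obtain ⟨-, y, a5, a6⟩ := a3.resolve_left a4
      obtain ⟨-, z, b5, b6⟩ := b3.resolve_left b4
      rw [a1] at a6
      rw [b1] at b6
      refine Vx.ext (a1.trans b1.symm) ?_ (a2.trans b2.symm)
      rw [a5, b5, P.inj _ (a6.trans b6.symm)]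
    · have h := (a3.resolve_left a4).1
      rw [b.1] at h
      exact absurd h (Option.some_ne_none _)
    · have h := (b3.resolve_left b4).1
      rw [a.1] at h
      exact absurd h (Option.some_ne_none _)
    · have h : v.x = w.x := Option.some.inj (a.1.symm.trans b.1)
      refine Vx.ext h (a.2.1.trans b.2.1.symm) ?_
      rw [a.2.2.2, b.2.2.2, h]
  refine (Set.encard_le_encard hsub).trans ((Set.encard_union_le _ _).trans ?_)
  have h4 := (Set.encard_union_le {v | Up u v} {v | Up v u ∧ v.o = u.o}).trans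
    (add_le_add (Set.encard_le_one_iff_subsingleton.2 h1) (Set.encard_le_one_iff_subsingleton.2 h2))
  exact (add_le_add h4 (Set.encard_le_one_iff_subsingleton.2 h3)).trans (by norm_num)

variable (P) in
/-- The vertex of a point. -/
def root (x : W) : Vx P := ⟨x, none, 0, fun _ h => absurd h.symm (Option.some_ne_none _)⟩

theorem exists_parent (u : Vx P) {n : ℕ} (h : u.i = n + 1) : ∃ v, Up u v := by
  obtain ⟨x, o, i, ok⟩ := u
  dsimp only at h
  subst h
  cases o with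
  | none => exact ⟨⟨x, none, n, fun _ h => absurd h.symm (Option.some_ne_none _)⟩,
      rfl, rfl, Or.inl rfl⟩
  | some y =>
    by_cases h1 : P.ν x y = n
    · exact ⟨⟨x, none, n, fun _ h => absurd h.symm (Option.some_ne_none _)⟩, rfl, rfl,
        Or.inr ⟨rfl, y, rfl, h1⟩⟩
    · refine ⟨⟨x, some y, n, fun z hz => ?_⟩, rfl, rfl, Or.inl rfl⟩
      obtain rfl := Option.some.inj hz
      have h2 := ok y rfl
      omega

theorem exists_walk_root (n : ℕ) : ∀ (x : W) (u : Vx P), u.x = x → u.i = n →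
    ∃ p : (gr P).Walk u (root P x), p.length = n := by
  induction n with
  | zero =>
    intro x u h1 h2
    have h3 : u = root P x := by
      refine Vx.ext h1 ?_ h2
      cases h : u.o with
      | none => rfl
      | some y =>
        have := (u.ok y h).1
        omega
    subst h3
    exact ⟨.nil, rfl⟩
  | succ n ih =>
    intro x u h1 h2
    obtain ⟨v, hv⟩ := exists_parent u h2
    obtain ⟨p, hp⟩ := ih x v (hv.1.symm.trans h1) (by have := hv.2.1; omega)
    exact ⟨.cons hv.adj p, by rw [SimpleGraph.Walk.length_cons, hp]⟩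

theorem exists_walk_roots (x y : W) :
    ∃ p : (gr P).Walk (root P x) (root P y), p.length ≤ 2 * P.L x y + 1 := by
  by_cases h : x = y
  · subst h
    exact ⟨.nil, Nat.zero_le _⟩
  · let u : Vx P := ⟨x, some y, P.L x y, fun z hz => by
      obtain rfl := Option.some.inj hz
      exact ⟨P.lt x y, le_rfl⟩⟩
    let v : Vx P := ⟨y, some x, P.L x y, fun z hz => by
      obtain rfl := Option.some.inj hz
      rw [P.L_comm x y]
      exact ⟨P.lt y x, le_rfl⟩⟩
    have huv : (gr P).Adj u v :=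
      ⟨fun e => h (congrArg Vx.x e), Or.inl (Or.inr ⟨rfl, rfl, rfl, rfl⟩)⟩
    obtain ⟨p, hp⟩ := exists_walk_root _ x u rfl rfl
    obtain ⟨q, hq⟩ := exists_walk_root _ y v rfl rfl
    refine ⟨p.reverse.append (.cons huv q), ?_⟩
    rw [SimpleGraph.Walk.length_append, SimpleGraph.Walk.length_reverse,
      SimpleGraph.Walk.length_cons, hp, hq]
    change P.L x y + (P.L x y + 1) ≤ _
    omega

variable (P) in
theorem gr_connected [Nonempty W] : (gr P).Connected := by
  have : Nonempty (Vx P) := ⟨root P (Classical.arbitrary W)⟩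
  refine ⟨fun u v => ?_⟩
  obtain ⟨p, -⟩ := exists_walk_root _ _ u rfl rfl
  obtain ⟨q, -⟩ := exists_walk_root _ _ v rfl rfl
  obtain ⟨r, -⟩ := exists_walk_roots (P := P) u.x v.x
  exact ⟨p.append (r.append q.reverse)⟩

theorem adj_control {u v : Vx P} (h : (gr P).Adj u v) :
    v.i ≤ u.i + 1 ∧ u.i ≤ v.i + 1 ∧ (u.x = v.x ∨ u.i = P.L u.x v.x) := by
  rcases adj_cases h with ⟨h1, h2, -⟩ | ⟨h1, h2, -⟩ | ⟨-, -, h1, h2⟩
  · exact ⟨by omega, by omega, Or.inl h1⟩
  · exact ⟨by omega, by omega, Or.inl h1.symm⟩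
  · exact ⟨by omega, by omega, Or.inr h1⟩

variable [Nonempty W]

theorem dist_control (u v : Vx P) : v.i ≤ u.i + (gr P).dist u v ∧ u.i ≤ v.i + (gr P).dist u v ∧
    dist u.x v.x ≤ ((gr P).dist u v * (u.i + (gr P).dist u v) : ℕ) := by
  refine dist_ind (gr_connected P) (fun k v => v.i ≤ u.i + k ∧ u.i ≤ v.i + k ∧
    dist u.x v.x ≤ (k * (u.i + k) : ℕ)) (fun k v w hv hw => ?_) ⟨le_rfl, le_rfl, ?_⟩ v
  · obtain ⟨a1, a2, a3⟩ := hv
    obtain ⟨b1, b2, b3⟩ := adj_control hw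
    refine ⟨by omega, by omega, (dist_triangle _ v.x _).trans ?_⟩
    have h1 : dist v.x w.x ≤ ((u.i + k : ℕ) : ℝ) := by
      rcases b3 with b3 | b3
      · rw [b3, dist_self]
        exact Nat.cast_nonneg _
      · exact (P.dist_le_L _ _).trans (Nat.cast_le.2 (by omega))
    refine (add_le_add a3 h1).trans ?_
    rw [← Nat.cast_add, Nat.cast_le]
    nlinarith
  · rw [dist_self]
    exact Nat.cast_nonneg _

theorem same_cell {S : ℕ} {u v : Vx P} (h1 : P.lam (3 * S) + S < u.i)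
    (h2 : u.i ≤ P.lam (3 * S) + 2 * S) (h : (gr P).dist u v ≤ S) : v.x = u.x := by
  refine (dist_ind (gr_connected P) (fun k v => v.i ≤ u.i + k ∧ u.i ≤ v.i + k ∧
    (k ≤ S → v.x = u.x)) (fun k v w hv hw => ?_) ⟨le_rfl, le_rfl, fun _ => rfl⟩ v).2.2 h
  obtain ⟨a1, a2, a3⟩ := hv
  obtain ⟨b1, b2, b3⟩ := adj_control hw
  refine ⟨by omega, by omega, fun hk => ?_⟩
  rcases b3 with b3 | b3
  · exact b3.symm.trans (a3 (by omega))
  · exfalso
    rcases le_or_gt ⌈dist v.x w.x⌉₊ (3 * S) with h3 | h3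
    · have h4 : P.L v.x w.x ≤ P.lam (3 * S) := P.mono h3
      omega
    · have h4 : P.lam (3 * S + 1) ≤ P.L v.x w.x := P.mono h3
      have h5 := P.gap (3 * S)
      omega

theorem finite_cell (x : W) (D : ℕ) : {u : Vx P | u.x = x ∧ u.i ≤ D}.Finite := by
  have h1 : ((insert none (some '' (P.ν x ⁻¹' {n | n < D}))) ×ˢ {n : ℕ | n ≤ D} :
      Set (Option W × ℕ)).Finite :=
    ((((Set.finite_lt_nat D).preimage (P.inj x).injOn).image _).insert _).prod
      (Set.finite_le_nat D)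
  refine Set.Finite.of_finite_image (f := fun u => (u.o, u.i)) (h1.subset ?_) ?_
  · rintro _ ⟨u, ⟨a1, a2⟩, rfl⟩
    refine ⟨?_, a2⟩
    cases h : u.o with
    | none => exact Or.inl h
    | some y =>
      refine Or.inr ⟨y, ?_, h.symm⟩
      have h2 := (u.ok y h).1
      rw [a1] at h2
      exact lt_of_lt_of_le h2 a2
  · rintro u ⟨a1, -⟩ v ⟨b1, -⟩ h
    exact Vx.ext (a1.trans b1.symm) (congrArg Prod.fst h) (congrArg Prod.snd h)

noncomputable instance vxMetric : MetricSpace (Vx P) := gMetric (gr_connected P)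

instance vxBdd : BddGeometry (Vx P) := gBdd (gr_connected P) (D := 3) deg_le

instance vxUnif : UnifDiscrete (Vx P) := gUnif (gr_connected P)

theorem vx_dist (u v : Vx P) : dist u v = ((gr P).dist u v : ℝ) := rfl

variable (P) in
theorem vx_subcubic : IsSubcubicGraph (Vx P) := ⟨gr P, gr_connected P, deg_le, vx_dist⟩

theorem vx_dist_le {u v : Vx P} {s : ℝ} (h : dist u v ≤ s) : (gr P).dist u v ≤ ⌈s⌉₊ :=
  Nat.cast_le.1 (h.trans (Nat.le_ceil s))

theorem cell_control {u v : Vx P} {s : ℝ} {D : ℕ} (hu : u.i ≤ D) (h : dist u v ≤ s) :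
    dist u.x v.x ≤ ((⌈s⌉₊ * (D + ⌈s⌉₊) : ℕ) : ℝ) := by
  have h1 := vx_dist_le h
  exact (dist_control u v).2.2.trans (Nat.cast_le.2 (Nat.mul_le_mul h1 (by omega)))

variable (P) in
theorem coarseEmb_root : CoarseEmb (root P) := by
  refine ⟨fun r => ⟨((2 * P.lam ⌈r⌉₊ + 1 : ℕ) : ℝ), fun x y h => ?_⟩,
    fun s => ⟨_, fun x y h => cell_control (D := 0) le_rfl h⟩⟩
  obtain ⟨p, hp⟩ := exists_walk_roots (P := P) x y
  have h1 : P.L x y ≤ P.lam ⌈r⌉₊ := P.mono (Nat.ceil_mono h)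
  rw [vx_dist, Nat.cast_le]
  exact (SimpleGraph.dist_le p).trans (by omega)

/-- A proper family of rays. -/
structure Rays (X : Type) [MetricSpace X] where
  ray : X → ℕ → X
  C : ℝ
  zero : ∀ x, ray x 0 = x
  step : ∀ x j j', j ≤ j' + 1 → j' ≤ j + 1 → dist (ray x j) (ray x j') ≤ C
  fin : ∀ z, {q : X × ℕ | ray q.1 q.2 = z}.Finite

variable (P) in
theorem exists_retr {X : Type} [MetricSpace X] (R : Rays X) {ι : X → W} {ρ : W → X}
    (hρ : Controlled ρ) (hl : ∀ x, ρ (ι x) = x) (hf : ∀ x, (ρ ⁻¹' {x}).Finite) (s : ℝ) :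
    ∃ s', Nonempty (Retr (fun x => root P (ι x)) s s') := by
  obtain ⟨S, hS⟩ : ∃ S : ℕ, S = ⌈s⌉₊ := ⟨_, rfl⟩
  obtain ⟨D, hD⟩ : ∃ D : ℕ, D = P.lam (3 * S) + 2 * S := ⟨_, rfl⟩
  obtain ⟨s₁, hs₁⟩ := hρ ((⌈s⌉₊ * (D + ⌈s⌉₊) : ℕ) : ℝ)
  refine ⟨max s₁ R.C, ⟨⟨{u | D < u.i}, fun z => R.ray (ρ z.1.x) z.2, fun x => Nat.not_lt_zero D,
    fun x => (R.zero _).trans (hl x), fun u v hu _ h => ?_,
    fun u v w hu _ hw h1 _ h3 j j' a b => ?_, fun x => ?_⟩⟩⟩
  · dsimp only
    rw [R.zero, R.zero]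
    exact (hs₁ _ _ (cell_control (not_lt.1 hu) h)).trans (le_max_left _ _)
  · have h4 := vx_dist_le h1
    have h5 := (dist_control u w).1
    have h6 : D < w.i := hw
    have h7 : u.i ≤ D := not_lt.1 hu
    have h8 : v.x = u.x := same_cell (S := S) (by omega) (by omega) (hS ▸ vx_dist_le h3)
    dsimp only
    rw [h8]
    exact (R.step _ j j' a b).trans (le_max_right _ _)
  · have h1 : (⋃ q ∈ {q : X × ℕ | R.ray q.1 q.2 = x}, ⋃ y ∈ ρ ⁻¹' {q.1},
        {u : Vx P | u.x = y ∧ u.i ≤ D} ×ˢ {q.2}).Finite :=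
      (R.fin x).biUnion fun q _ => (hf q.1).biUnion fun y _ =>
        (finite_cell y D).prod (Set.finite_singleton _)
    refine h1.subset fun z hz => ?_
    exact Set.mem_iUnion₂.2 ⟨(ρ z.1.x, z.2), hz.2, Set.mem_iUnion₂.2
      ⟨z.1.x, rfl, ⟨rfl, not_lt.1 hz.1.1⟩, rfl⟩⟩

end Vale.Agent.N212
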