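import Vale.Agent.P212H52.Br

/-! The assembly map of an arbitrary `*`-homomorphism on `ℂ[X]`, and its functoriality in the
target algebra. -/

set_option linter.unusedSectionVars false

namespace Vale.Agent.N212

open Vale.Agent.P212 Vale.Agent.P212.H268 Vale.Agent.P212Z ZeroAtInfty Matrix

theorem hInv : P212H.HInv :=
  P212H.hinv P212H58.eval (P212H60.fam P212H26.stab) @P212H.swindleRow

theorem ind_congr {M Q B : Type} [Ring M] [Algebra ℂ M] [Ring Q] [NormedRing B]
    [NormedAlgebra ℂ B] [CompleteSpace B]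
    {R R' : Rel M Q B} (hj : ∀ a, R.q a = 0 → R.j a = R'.j a) (d : IDat R) (d' : IDat R')
    (h0 : d.p₀ = d'.p₀) (h1 : d.p₁ = d'.p₁) (h2 : d.T = d'.T) (h3 : d.S = d'.S) :
    d.ind = d'.ind := by
  unfold IDat.ind IPair.del
  congr 1
  refine K0.cls_congr _ ?_
  ext1 a b
  have e : dM d.pair.e d.pair.f = dM d'.pair.e d'.pair.f := by
    unfold IDat.pair
    dsimp only
    rw [h0, h1, h2, h3]
  have e1 := hj _ (R.q_sub (d.pair.dP a b))
  change algebraMap ℂ B (oM (Fin 2) ℂ a b) +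
      R.j (dM d.pair.e d.pair.f a b - algebraMap ℂ M (oM (Fin 2) ℂ a b)) =
    algebraMap ℂ B (oM (Fin 2) ℂ a b) +
      R'.j (dM d'.pair.e d'.pair.f a b - algebraMap ℂ M (oM (Fin 2) ℂ a b))
  rw [← e]
  exact congrArg _ e1

section Model

variable {X A : Type} [MetricSpace X] [BddGeometry X] [Nonempty X] [NonUnitalCStarAlgebra A]

theorem mu_congr {i j : BX X → A} (hi : StarHomOn (IsRoe (gX X)) i)
    (hj : StarHomOn (IsRoe (gX X)) j) (h : ∀ T, IsRoe (gX X) T → i T = j T) :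
    mu hi = mu hj := by
  refine P212Z.KX0.hom_ext fun r c => Subtype.ext ?_
  obtain ⟨w, hw⟩ := c.M.exists_w
  rw [mu_apply, mu_apply, mu0_cls hi r c hw, mu0_cls hj r c hw]
  refine congrArg _ (ind_congr (fun a ha => ?_) _ _ rfl rfl rfl rfl)
  exact congrArg Unitization.inr (h _ (q_roe.1 ha))

end Model

section Asm

variable {X H A : Type} [MetricSpace X] [BddGeometry X] [NormedAddCommGroup H]
  [InnerProductSpace ℂ H] [CompleteSpace H] [NonUnitalCStarAlgebra A]
  {b : HilbertBasis (X × ℕ) ℂ H}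

theorem roe_symm {T : BX X} (hT : IsRoe (gX X) T) :
    IsRoeOp b (b.repr.symm.conjStarAlgEquiv T) := by
  have hU : ∀ j, b.repr (b j) = stdB (X × ℕ) (Equiv.refl _ j) := repr_basis b
  have hU' : ∀ j, b.repr.symm (stdB (X × ℕ) j) = b (Equiv.refl _ j) := fun j =>
    b.repr.symm_apply_eq.2 (hU j).symm
  exact H35.isRoeOp_conj (fun _ => rfl) hU' ((isRoeOp_iff T).2 hT)

theorem roe_repr {T : H →L[ℂ] H} (hT : IsRoeOp b T) :
    IsRoe (gX X) (b.repr.conjStarAlgEquiv T) := by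
  have hU : ∀ j, b.repr (b j) = stdB (X × ℕ) (Equiv.refl _ j) := repr_basis b
  exact (isRoeOp_iff _).1 (H35.isRoeOp_conj (fun _ => rfl) hU hT)

theorem roe_iff {T : H →L[ℂ] H} : IsRoeOp b T ↔ IsRoe (gX X) (b.repr.conjStarAlgEquiv T) :=
  ⟨roe_repr, fun h => by simpa only [H35.conj_symm_conj] using roe_symm (b := b) h⟩

theorem isSub_roeOp : H35.IsSub (E := H →L[ℂ] H) (IsRoeOp b) where
  zero := roe_iff.2 (by rw [map_zero]; exact H35.isSub_roe.zero)
  add S T hS hT := roe_iff.2 (by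
    rw [map_add]; exact H35.isSub_roe.add _ _ (roe_repr hS) (roe_repr hT))
  mul S T hS hT := roe_iff.2 (by
    rw [map_mul]; exact H35.isSub_roe.mul _ _ (roe_repr hS) (roe_repr hT))
  star T hT := roe_iff.2 (by rw [map_star]; exact H35.isSub_roe.star _ (roe_repr hT))
  smul c T hT := roe_iff.2 (by rw [map_smul]; exact H35.isSub_roe.smul c _ (roe_repr hT))

theorem hom_of {i : (H →L[ℂ] H) → A} (h : StarHomOn (IsRoeOp b) i) :
    StarHomOn (IsRoe (gX X)) fun T : BX X => i (b.repr.symm.conjStarAlgEquiv T) := by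
  intro S T hS hT
  have h1 := h _ _ (roe_symm hS) (roe_symm hT)
  simp only [map_add, map_mul, map_star, map_smul]
  exact h1

variable [Nonempty X]

/-- The assembly map of a `*`-homomorphism on `ℂ[X]`. -/
noncomputable def asm {i : (H →L[ℂ] H) → A} (h : StarHomOn (IsRoeOp b) i) :
    P212T.KX0 X →+ KC A := P212T.muH hInv (hom_of h)

theorem isAssembly_asm {i : (H →L[ℂ] H) → A} (h : StarHomOn (IsRoeOp b) i) :
    P212T.IsAssembly b i (asm h) :=
  P212T.isAssembly_congr (isAssembly_of (isAssembly_mu (hom_of h))) fun r c =>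
    (P212T.muH_cls hInv (hom_of h) r c).trans (congrArg (mu (hom_of h)) (kxTo_cls r c)).symm

theorem asm_congr {i j : (H →L[ℂ] H) → A} (hi : StarHomOn (IsRoeOp b) i)
    (hj : StarHomOn (IsRoeOp b) j) (h : ∀ T, IsRoeOp b T → i T = j T) : asm hi = asm hj := by
  refine P212T.KX0.hom_ext fun r c => ?_
  have h1 := mu_congr (hom_of hi) (hom_of hj) fun T hT => h _ (roe_symm hT)
  exact (P212T.muH_cls hInv (hom_of hi) r c).trans
    ((DFunLike.congr_fun h1 _).trans (P212T.muH_cls hInv (hom_of hj) r c).symm)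

end Asm

section KC

variable {A B : Type} [NonUnitalCStarAlgebra A] [NonUnitalCStarAlgebra B]

/-- The unital extension, as a ring homomorphism. -/
noncomputable def uMap (φ : A →⋆ₙₐ[ℂ] B) : Unitization ℂ A →+* Unitization ℂ B :=
  (Unitization.starMap φ : Unitization ℂ A →⋆ₐ[ℂ] Unitization ℂ B)

theorem uMap_inr (φ : A →⋆ₙₐ[ℂ] B) (a : A) :
    uMap φ (Unitization.inr a) = Unitization.inr (φ a) := Unitization.starMap_inr φ a

theorem fst_uMap (φ : A →⋆ₙₐ[ℂ] B) :
    (Unitization.fstHom ℂ B : Unitization ℂ B →+* ℂ).comp (uMap φ) =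
      (Unitization.fstHom ℂ A : Unitization ℂ A →+* ℂ) := by
  refine RingHom.ext fun x => ?_
  change (Unitization.starMap φ x).fst = x.fst
  rw [Unitization.starMap_apply]
  simp [Unitization.algebraMap_eq_inl]

theorem kz_map_map {R S T : Type} [Ring R] [Ring S] [Ring T] (f : R →+* S) (g : S →+* T)
    (x : KZero R) : KZero.map g (KZero.map f x) = KZero.map (g.comp f) x := by
  have h : (KZero.map g).comp (KZero.map f) = KZero.map (g.comp f) := Pres.hom_ext fun a => by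
    rw [AddMonoidHom.comp_apply, KZero.map, KZero.map, KZero.map, Pres.map_of, Pres.map_of,
      Pres.map_of]
    rfl
  exact DFunLike.congr_fun h x

/-- Functoriality of `K_0` of C*-algebras. -/
noncomputable def kcMap (φ : A →⋆ₙₐ[ℂ] B) : KC A →+ KC B :=
  ((KZero.map (uMap φ)).comp (KCStar A).subtype).codRestrict (KCStar B) fun x => by
    change KZero.map _ (KZero.map (uMap φ) x.1) = 0
    rw [kz_map_map, fst_uMap]
    exact x.2

theorem kcMap_val (φ : A →⋆ₙₐ[ℂ] B) (z : KC A) :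
    (kcMap φ z).val = KZero.map (uMap φ) z.val := rfl

theorem isIndex_kcMap (φ : A →⋆ₙₐ[ℂ] B) {R : Type} [Ring R] {i : R → A} {p₀ p₁ Φ : R}
    {z : KC A} (h : IsIndex i p₀ p₁ Φ z) :
    IsIndex (fun T => φ (i T)) p₀ p₁ Φ (kcMap φ z) := by
  obtain ⟨D, O, hD, hO, h1, h2, h3⟩ := h
  have h4 : (fromBlocks 1 0 0 0 : Matrix (Fin 2 ⊕ Fin 2) (Fin 2 ⊕ Fin 2) (Unitization ℂ A)).map
      (uMap φ) = fromBlocks 1 0 0 0 := oM_map (uMap φ)
  refine ⟨D.map (uMap φ), O.map (uMap φ), mapMat_idem _ hD, mapMat_idem _ hO, ?_, ?_, ?_⟩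
  · rw [h1]
    unfold diffIdem
    rw [Matrix.map_add _ (map_add (uMap φ)), h4, Matrix.map_map]
    congr 2
    funext T
    exact uMap_inr φ (i T)
  · rw [h2, h4]
  · rw [kcMap_val, h3, map_sub, KZero.map_cls, KZero.map_cls]

end KC

section NonUnital

variable {R S A : Type} [Ring R] [Ring S] [Algebra ℂ R] [Algebra ℂ S] [NonUnitalCStarAlgebra A]

theorem diffIdem_congr {U : Type} [Ring U] {i j : U → A} (π : U →+* ℂ)
    (e f : Matrix (Fin 2) (Fin 2) U) (hef : e.map π = f.map π)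
    (h : ∀ T, π T = 0 → i T = j T) : diffIdem i e f = diffIdem j e f := by
  unfold diffIdem
  congr 1
  ext1 a b
  rw [Matrix.map_apply, Matrix.map_apply]
  refine congrArg _ (h _ ?_)
  have h1 : (fromBlocks f (1 - f) (1 - f) f * fromBlocks (e - f) 0 0 0 *
      fromBlocks f (1 - f) (1 - f) f).map π = 0 := by
    rw [Matrix.map_mul, Matrix.map_mul, fromBlocks_map (e - f), Matrix.map_sub _ (map_sub π), hef,
      sub_self, Matrix.map_zero _ (map_zero π), fromBlocks_zero, Matrix.mul_zero, Matrix.zero_mul]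
  exact congrFun (congrFun h1 a) b

theorem diffIdem_nonunital (ψ : R →ₙₐ[ℂ] S) (i : S → A) (p₀ p₁ T U : R) :
    diffIdem i (indexE (ψ p₀) (ψ p₁) (ψ T) (ψ U)) !![ψ p₁, 0; 0, 0] =
      diffIdem (fun x => i (ψ x)) (indexE p₀ p₁ T U) !![p₁, 0; 0, 0] := by
  let α : Unitization ℂ R →+* R := (Unitization.lift (NonUnitalAlgHom.id ℂ R) :
    Unitization ℂ R →ₐ[ℂ] R)
  let β : Unitization ℂ R →+* S := (Unitization.lift ψ : Unitization ℂ R →ₐ[ℂ] S)
  let π : Unitization ℂ R →+* ℂ := (Unitization.fstHom ℂ R : Unitization ℂ R →ₐ[ℂ] ℂ)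
  have hα : ∀ x : R, α (Unitization.inr x) = x := fun x => by simp [α]
  have hβ : ∀ x : R, β (Unitization.inr x) = ψ x := fun x => by simp [β]
  have hπ : ∀ x : R, π (Unitization.inr x) = 0 := fun x => by simp [π]
  have hf : ∀ {V : Type} [Ring V] (γ : Unitization ℂ R →+* V),
      (!![Unitization.inr p₁, 0; 0, 0] : Matrix (Fin 2) (Fin 2) (Unitization ℂ R)).map γ =
        !![γ (Unitization.inr p₁), 0; 0, 0] := fun γ => by
    ext a b
    fin_cases a <;> fin_cases b <;> simp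
  have h1 := diffIdem_map β i
    (indexE (Unitization.inr p₀) (Unitization.inr p₁) (Unitization.inr T) (Unitization.inr U))
    !![Unitization.inr p₁, 0; 0, 0]
  have h2 := diffIdem_map α (fun x => i (ψ x))
    (indexE (Unitization.inr p₀) (Unitization.inr p₁) (Unitization.inr T) (Unitization.inr U))
    !![Unitization.inr p₁, 0; 0, 0]
  rw [indexE_map, hf] at h1 h2
  simp only [hα, hβ] at h1 h2
  rw [h1, h2]
  refine diffIdem_congr π _ _ ?_ fun x hx => ?_
  · rw [indexE_map, hf]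
    simp only [hπ]
    unfold indexE
    ext a b
    fin_cases a <;> fin_cases b <;> simp [Matrix.mul_apply]
  · have h3 : x = Unitization.inr x.snd := by
      conv_lhs => rw [← Unitization.inl_fst_add_inr_snd_eq x]
      have h4 : x.fst = 0 := hx
      rw [h4, Unitization.inl_zero, zero_add]
    rw [h3, hα, hβ]

theorem isIndex_nonunital (ψ : R →ₙₐ[ℂ] S) {i : S → A} {p₀ p₁ Φ : R} {Φ' : S} {z : KC A}
    (h₁ : ψ p₁ * Φ' * ψ p₀ = ψ (p₁ * Φ * p₀)) (h₀ : ψ p₀ * Φ' * ψ p₁ = ψ (p₀ * Φ * p₁))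
    (h : IsIndex i (ψ p₀) (ψ p₁) Φ' z) : IsIndex (fun x => i (ψ x)) p₀ p₁ Φ z := by
  obtain ⟨D, O, hD, hO, h1, h2⟩ := h
  refine ⟨D, O, hD, hO, h1.trans ?_, h2⟩
  rw [h₁, h₀, diffIdem_nonunital]

end NonUnital

end Vale.Agent.N212
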