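import Vale.Agent.N212.Func

/-! Naturality of the assembly map for injective controlled maps. -/

set_option linter.unusedSectionVars false

namespace Vale.Agent.N212

open Vale.Agent.P212 Vale.Agent.P212Z ZeroAtInfty
open ContinuousLinearMap hiding proj

section Ext

variable {J J' H H' : Type} [NormedAddCommGroup H] [InnerProductSpace ℂ H] [CompleteSpace H]
  [NormedAddCommGroup H'] [InnerProductSpace ℂ H'] [CompleteSpace H']
  (b : HilbertBasis J ℂ H) (b' : HilbertBasis J' ℂ H') (κ : J ↪ J')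

theorem vec_ext {u v : H} (h : ∀ j, inner ℂ (b j) u = inner ℂ (b j) v) : u = v := by
  refine b.repr.injective (lp.ext (funext fun j => ?_))
  rw [b.repr_apply_apply, b.repr_apply_apply, h]

theorem op_ext {S T : H →L[ℂ] H}
    (h : ∀ j k, inner ℂ (b j) (S (b k)) = inner ℂ (b j) (T (b k))) : S = T := by
  refine ContinuousLinearMap.ext_on (s := Set.range b)
    (Submodule.dense_iff_topologicalClosure_eq_top.2 b.dense_span) ?_
  rintro _ ⟨k, rfl⟩
  exact vec_ext b fun j => h j k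

/-- The isometry of an injective map of bases. -/
noncomputable def isoV : H →ₗᵢ[ℂ] H' :=
  (b'.orthonormal.comp κ κ.injective).orthogonalFamily.linearIsometry.comp
    b.repr.toLinearIsometry

theorem isoV_basis (j : J) : isoV b b' κ (b j) = b' (κ j) := by
  classical
  change (b'.orthonormal.comp κ κ.injective).orthogonalFamily.linearIsometry (b.repr (b j)) = _
  rw [b.repr_self, OrthogonalFamily.linearIsometry_apply_single]
  simp

/-- The isometry as a bounded operator. -/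
noncomputable def opV : H →L[ℂ] H' := (isoV b b' κ).toContinuousLinearMap

theorem opV_basis (j : J) : opV b b' κ (b j) = b' (κ j) := isoV_basis b b' κ j

theorem adj_opV (ξ : H) : adjoint (opV b b' κ) (opV b b' κ ξ) = ξ := by
  refine ext_inner_left ℂ fun η => ?_
  rw [adjoint_inner_right]
  exact (isoV b b' κ).inner_map_map η ξ

theorem adj_self (j : J) : adjoint (opV b b' κ) (b' (κ j)) = b j := by
  rw [← opV_basis b b' κ, adj_opV]

theorem adj_not {j' : J'} (h : ∀ j, κ j ≠ j') : adjoint (opV b b' κ) (b' j') = 0 := by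
  refine vec_ext b fun j => ?_
  rw [adjoint_inner_right, opV_basis, inner_zero_right]
  exact b'.orthonormal.2 (h j)

/-- Extension by zero. -/
noncomputable def extZ : (H →L[ℂ] H) →⋆ₙₐ[ℂ] (H' →L[ℂ] H') where
  toFun T := opV b b' κ ∘L T ∘L adjoint (opV b b' κ)
  map_smul' c T := by
    ext ξ
    simp
  map_zero' := by
    ext ξ
    simp
  map_add' S T := by
    ext ξ
    simp
  map_mul' S T := by
    ext ξ
    change opV b b' κ (S (T (adjoint (opV b b' κ) ξ))) =
      opV b b' κ (S (adjoint (opV b b' κ) (opV b b' κ (T (adjoint (opV b b' κ) ξ)))))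
    rw [adj_opV]
  map_star' T := by
    rw [star_eq_adjoint, star_eq_adjoint, adjoint_comp, adjoint_comp, adjoint_adjoint, comp_assoc]

theorem extZ_apply (T : H →L[ℂ] H) (ξ : H') :
    extZ b b' κ T ξ = opV b b' κ (T (adjoint (opV b b' κ) ξ)) := rfl

theorem inner_extZ (T : H →L[ℂ] H) (ξ η : H') :
    inner ℂ ξ (extZ b b' κ T η) =
      inner ℂ (adjoint (opV b b' κ) ξ) (T (adjoint (opV b b' κ) η)) := by
  rw [extZ_apply, adjoint_inner_left]

theorem inner_extZ_self (T : H →L[ℂ] H) (j k : J) :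
    inner ℂ (b' (κ j)) (extZ b b' κ T (b' (κ k))) = inner ℂ (b j) (T (b k)) := by
  rw [inner_extZ, adj_self, adj_self]

theorem inner_extZ_left (T : H →L[ℂ] H) {j' : J'} (h : ∀ j, κ j ≠ j') (η : H') :
    inner ℂ (b' j') (extZ b b' κ T η) = 0 := by
  rw [inner_extZ, adj_not b b' κ h, inner_zero_left]

theorem inner_extZ_right (T : H →L[ℂ] H) {j' : J'} (h : ∀ j, κ j ≠ j') (ξ : H') :
    inner ℂ ξ (extZ b b' κ T (b' j')) = 0 := by
  rw [inner_extZ, adj_not b b' κ h, map_zero, inner_zero_right]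

theorem extZ_mul_mul (S T Φ : H →L[ℂ] H) (Φ' : H' →L[ℂ] H')
    (h : ∀ j k, inner ℂ (b' (κ j)) (Φ' (b' (κ k))) = inner ℂ (b j) (Φ (b k))) :
    extZ b b' κ S * Φ' * extZ b b' κ T = extZ b b' κ (S * Φ * T) := by
  have h1 : adjoint (opV b b' κ) ∘L Φ' ∘L opV b b' κ = Φ := op_ext b fun j k => by
    rw [comp_apply, comp_apply, adjoint_inner_right, opV_basis, opV_basis, h]
  rw [← h1]
  rfl

theorem isCompactOperator_extZ {T : H →L[ℂ] H} (hT : IsCompactOperator T) :
    IsCompactOperator (extZ b b' κ T) := by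
  have h1 : IsCompactOperator (T ∘L adjoint (opV b b' κ)) := hT.comp_clm _
  exact h1.clm_comp (opV b b' κ)

end Ext

section Roe

variable {X Y H H' : Type} [MetricSpace X] [MetricSpace Y]
  [NormedAddCommGroup H] [InnerProductSpace ℂ H] [CompleteSpace H]
  [NormedAddCommGroup H'] [InnerProductSpace ℂ H'] [CompleteSpace H']
  (b : HilbertBasis (X × ℕ) ℂ H) (b' : HilbertBasis (Y × ℕ) ℂ H') (ι : X ↪ Y)

/-- The map of the index sets. -/
def kap (ι : X ↪ Y) : X × ℕ ↪ Y × ℕ := ι.prodMap (Function.Embedding.refl ℕ)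

theorem kap_apply (x : X) (n : ℕ) : kap ι (x, n) = (ι x, n) := rfl

theorem kap_not {j : Y × ℕ} (h : ¬ ∃ x, ι x = j.1) : ∀ k, kap ι k ≠ j := fun k hk =>
  h ⟨k.1, congrArg Prod.fst hk⟩

theorem kap_cases (j : Y × ℕ) : (∃ k, kap ι k = j) ∨ ∀ k, kap ι k ≠ j := by
  by_cases h : ∃ k, kap ι k = j
  · exact Or.inl h
  · exact Or.inr fun k hk => h ⟨k, hk⟩

theorem isRoeOp_extZ (h : Controlled ι) {T : H →L[ℂ] H} (hT : IsRoeOp b T) :
    IsRoeOp b' (extZ b b' (kap ι) T) := by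
  obtain ⟨⟨R, hR⟩, hc⟩ := hT
  obtain ⟨s, hs⟩ := h R
  refine ⟨⟨s, fun j k hjk => ?_⟩, fun y y' => ?_⟩
  · rcases kap_cases ι j with ⟨j, rfl⟩ | hj
    · rcases kap_cases ι k with ⟨k, rfl⟩ | hk
      · rw [inner_extZ_self]
        refine hR j k (lt_of_not_ge fun h1 => ?_)
        exact absurd (hs _ _ h1) (not_le.2 hjk)
      · exact inner_extZ_right _ _ _ _ hk _
    · exact inner_extZ_left _ _ _ _ hj _
  · by_cases hy : ∃ x, ι x = y
    · by_cases hy' : ∃ x, ι x = y'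
      · obtain ⟨x, rfl⟩ := hy
        obtain ⟨x', rfl⟩ := hy'
        obtain ⟨L, hL, h1, h2⟩ := hc x x'
        refine ⟨extZ b b' (kap ι) L, isCompactOperator_extZ _ _ _ hL, fun m n => ?_,
          fun j k hjk => ?_⟩
        · rw [← kap_apply, ← kap_apply, inner_extZ_self, inner_extZ_self, h1]
        · rcases kap_cases ι j with ⟨j, rfl⟩ | hj
          · rcases kap_cases ι k with ⟨k, rfl⟩ | hk
            · rw [inner_extZ_self]
              exact h2 j k fun h3 => hjk ⟨congrArg ι h3.1, congrArg ι h3.2⟩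
            · exact inner_extZ_right _ _ _ _ hk _
          · exact inner_extZ_left _ _ _ _ hj _
      · refine ⟨0, isCompactOperator_zero, fun m n => ?_, fun j k _ => ?_⟩
        · rw [inner_extZ_right _ _ _ _ (kap_not ι (j := (y', n)) hy'), zero_apply,
            inner_zero_right]
        · rw [zero_apply, inner_zero_right]
    · refine ⟨0, isCompactOperator_zero, fun m n => ?_, fun j k _ => ?_⟩
      · rw [inner_extZ_left _ _ _ _ (kap_not ι (j := (y, m)) hy), zero_apply, inner_zero_right]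
      · rw [zero_apply, inner_zero_right]

variable {A' : Type} [NonUnitalCStarAlgebra A']

theorem starHomOn_extZ (h : Controlled ι) {i' : (H' →L[ℂ] H') → A'}
    (hi : StarHomOn (IsRoeOp b') i') :
    StarHomOn (IsRoeOp b) fun T => i' (extZ b b' (kap ι) T) := by
  intro S T hS hT
  have h1 := hi _ _ (isRoeOp_extZ b b' ι h hS) (isRoeOp_extZ b b' ι h hT)
  simp only [map_add, map_mul, map_star, map_smul]
  exact h1

variable {K : Type} [NormedAddCommGroup K] [InnerProductSpace ℂ K] [CompleteSpace K]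

theorem eq_extZ_of_entries {e : HilbertBasis ℕ ℂ K} {p : H →L[ℂ] H} {p' : H' →L[ℂ] H'}
    {M : X → X → K →L[ℂ] K} {M' : Y → Y → K →L[ℂ] K} (h : Kas.HasEntries b e p M)
    (h' : Kas.HasEntries b' e p' M') (e1 : ∀ x x', M' (ι x) (ι x') = M x x')
    (e2 : ∀ y y', (∀ x, ι x ≠ y) ∨ (∀ x, ι x ≠ y') → M' y y' = 0) :
    p' = extZ b b' (kap ι) p := by
  refine op_ext b' fun j k => ?_
  obtain ⟨y, m⟩ := j
  obtain ⟨y', n⟩ := k
  rw [h']
  by_cases hy : ∃ x, ι x = y
  · by_cases hy' : ∃ x, ι x = y'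
    · obtain ⟨x, rfl⟩ := hy
      obtain ⟨x', rfl⟩ := hy'
      rw [← kap_apply, ← kap_apply, inner_extZ_self, h, e1]
    · rw [inner_extZ_right _ _ _ _ (kap_not ι (j := (y', n)) hy'),
        e2 _ _ (Or.inr fun x hx => hy' ⟨x, hx⟩), zero_apply, inner_zero_right]
  · rw [inner_extZ_left _ _ _ _ (kap_not ι (j := (y, m)) hy),
      e2 _ _ (Or.inl fun x hx => hy ⟨x, hx⟩), zero_apply, inner_zero_right]

variable [BddGeometry X] [BddGeometry Y]

theorem entries_compress {e : HilbertBasis ℕ ℂ K} {p' : H' →L[ℂ] H'}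
    {M : X → X → K →L[ℂ] K} {M' : Y → Y → K →L[ℂ] K}
    (h' : Kas.HasEntries b' e p' M') (e1 : ∀ x x', M' (ι x) (ι x') = M x x') :
    Kas.HasEntries b e (adjoint (opV b b' (kap ι)) ∘L p' ∘L opV b b' (kap ι)) M := by
  intro x x' m n
  rw [comp_apply, comp_apply, adjoint_inner_right, opV_basis, opV_basis, kap_apply, kap_apply,
    h', e1]

theorem natural (h : Controlled ι) {i' : (H' →L[ℂ] H') → A'}
    {μ' : P212T.KX0 Y →+ KC A'} (hμ' : P212T.IsAssembly b' i' μ') {μ : P212T.KX0 X →+ KC A'}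
    (hμ : P212T.IsAssembly b (fun T => i' (extZ b b' (kap ι) T)) μ) :
    μ = μ'.comp (kxMap ι h) := by
  classical
  refine P212T.KX0.hom_ext fun r c => ?_
  obtain ⟨E, c⟩ := c
  obtain ⟨s, hs⟩ : ∃ s, Ctl ι r s := h r
  rw [AddMonoidHom.comp_apply, kxMap_cls ι h hs]
  obtain ⟨w, q₀, q₁, Ψ, hw⟩ := (hμ' s E _ (stdB ℕ) (c.comap (c0Comap (ripsCo ι hs)))).1
  have h1 := (hμ' s E _ (stdB ℕ) (c.comap (c0Comap (ripsCo ι hs)))).2 w q₀ q₁ Ψ hw
  have hw' := P212T.isAmp_iff.1 hw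
  have a1 : ∀ (g : E →L[ℂ] E) x x', w ∘L ((c.comap (c0Comap (ripsCo ι hs))).ρ
      (bary s (ι x) * bary s (ι x')) * g) ∘L Kas.adj w =
      w ∘L (c.ρ (bary r x * bary r x') * g) ∘L Kas.adj w := fun g x x' => by
    change w ∘L (c.ρ (c0Comap (ripsCo ι hs) (bary s (ι x) * bary s (ι x'))) * g) ∘L _ = _
    rw [map_mul (c0Comap (ripsCo ι hs)), comap_bary_self, comap_bary_self]
  have a2 : ∀ (g : E →L[ℂ] E) y y', (∀ x, ι x ≠ y) ∨ (∀ x, ι x ≠ y') →
      w ∘L ((c.comap (c0Comap (ripsCo ι hs))).ρ (bary s y * bary s y') * g) ∘L Kas.adj w = 0 :=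
    fun g y y' hy => by
      change w ∘L (c.ρ (c0Comap (ripsCo ι hs) (bary s y * bary s y')) * g) ∘L _ = _
      have a3 : c0Comap (ripsCo ι hs) (bary s y * bary s y') = 0 := by
        rw [map_mul (c0Comap (ripsCo ι hs))]
        rcases hy with hy | hy
        · rw [comap_bary_not ι hs hy, zero_mul]
        · rw [comap_bary_not ι hs hy, mul_zero]
      rw [a3, map_zero, zero_mul, zero_comp, comp_zero]
  have e0 := entries_compress b b' ι hw'.even (a1 _)
  have e1 := entries_compress b b' ι hw'.odd (a1 _)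
  have e2 := entries_compress b b' ι
    (M := fun x y => if x = y then w ∘L c.F ∘L Kas.adj w else 0) hw'.op fun x x' => by
      simp only [ι.injective.eq_iff]
      rfl
  have f0 := eq_extZ_of_entries b b' ι e0 hw'.even (a1 _) (a2 _)
  have f1 := eq_extZ_of_entries b b' ι e1 hw'.odd (a1 _) (a2 _)
  have h2 := (hμ r E _ (stdB ℕ) c).2 w _ _ _ (P212T.isAmp_iff.2 ⟨hw'.iso, e0, e1, e2⟩)
  refine h2.unique ?_
  have h3 : ∀ j k, inner ℂ (b' (kap ι j)) (Ψ (b' (kap ι k))) =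
      inner ℂ (b j) ((adjoint (opV b b' (kap ι)) ∘L Ψ ∘L opV b b' (kap ι)) (b k)) :=
    fun j k => by rw [comp_apply, comp_apply, adjoint_inner_right, opV_basis, opV_basis]
  rw [f0, f1] at h1
  exact isIndex_nonunital (extZ b b' (kap ι) : (H →L[ℂ] H) →ₙₐ[ℂ] (H' →L[ℂ] H'))
    (extZ_mul_mul b b' (kap ι) _ _ _ _ h3) (extZ_mul_mul b b' (kap ι) _ _ _ _ h3) h1

variable {A : Type} [NonUnitalCStarAlgebra A] {b b'}

theorem isAssembly_kcMap {i : (H →L[ℂ] H) → A} {μ : P212T.KX0 X →+ KC A}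
    (hμ : P212T.IsAssembly b i μ) (φ : A →⋆ₙₐ[ℂ] A') :
    P212T.IsAssembly b (fun T => φ (i T)) ((kcMap φ).comp μ) :=
  fun r E K _ _ _ _ _ _ e c => ⟨(hμ r E K e c).1, fun w p₀ p₁ Φ hw =>
    isIndex_kcMap φ ((hμ r E K e c).2 w p₀ p₁ Φ hw)⟩

/-- The square commutes. -/
theorem square [Nonempty X] (h : Controlled ι) {i : (H →L[ℂ] H) → A}
    {i' : (H' →L[ℂ] H') → A'} (hi : StarHomOn (IsRoeOp b) i)
    (hd : Dense (i '' {T | IsRoeOp b T})) (hi' : StarHomOn (IsRoeOp b') i')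
    (hle : ∀ T, IsRoeOp b T → ‖i' (extZ b b' (kap ι) T)‖ ≤ ‖i T‖)
    {μ : P212T.KX0 X →+ KC A} (hμ : P212T.IsAssembly b i μ)
    {μ' : P212T.KX0 Y →+ KC A'} (hμ' : P212T.IsAssembly b' i' μ') :
    ∃ ψ : KC A →+ KC A', ψ.comp μ = μ'.comp (kxMap ι h) := by
  have hj := starHomOn_extZ b b' ι h hi'
  obtain ⟨φ, hφ⟩ := H35.exists_ext isSub_roeOp hi hj hd hle
  have hk : StarHomOn (IsRoeOp b) fun T => φ (i T) := fun S T hS hT => by
    obtain ⟨h1, h2, h3, h4⟩ := hi S T hS hT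
    exact ⟨(congrArg φ h1).trans (map_add φ _ _), (congrArg φ h2).trans (map_mul φ _ _),
      (congrArg φ h3).trans (map_star φ _), fun c => (congrArg φ (h4 c)).trans (map_smul φ _ _)⟩
  refine ⟨kcMap φ, ?_⟩
  rw [P212T.assembly_unique (isAssembly_kcMap hμ φ) (isAssembly_asm hk), asm_congr hk hj hφ]
  exact natural b b' ι h hμ' (isAssembly_asm hj)

theorem square_max [Nonempty X] (h : Controlled ι) {i : (H →L[ℂ] H) → A}
    {i' : (H' →L[ℂ] H') → A'} (hi : IsMaxRoe b i) (hi' : StarHomOn (IsRoeOp b') i')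
    {μ : P212T.KX0 X →+ KC A} (hμ : P212T.IsAssembly b i μ)
    {μ' : P212T.KX0 Y →+ KC A'} (hμ' : P212T.IsAssembly b' i' μ') :
    ∃ ψ : KC A →+ KC A', ψ.comp μ = μ'.comp (kxMap ι h) :=
  square ι h hi.1 hi.2.1 hi' (hi.2.2 A' _ (starHomOn_extZ b b' ι h hi')) hμ hμ'

theorem square_red [Nonempty X] (h : Controlled ι) {i : (H →L[ℂ] H) → A}
    {i' : (H' →L[ℂ] H') → A'} (hi : IsReducedRoe b i) (hi' : IsReducedRoe b' i')
    {μ : P212T.KX0 X →+ KC A} (hμ : P212T.IsAssembly b i μ)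
    {μ' : P212T.KX0 Y →+ KC A'} (hμ' : P212T.IsAssembly b' i' μ') :
    ∃ ψ : KC A →+ KC A', ψ.comp μ = μ'.comp (kxMap ι h) :=
  square ι h hi.1 hi.2.1 hi'.1 (fun T hT => by
    rw [hi'.2.2 _ (isRoeOp_extZ b b' ι h hT), hi.2.2 T hT]
    exact NonUnitalStarAlgHom.norm_apply_le _ T) hμ hμ'

end Roe

end Vale.Agent.N212
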