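import Vale.Agent.N212.Wedge
import Vale.Agent.N212.Nat

/-! Transfer of injectivity and of its failure. -/

set_option linter.unusedSectionVars false

namespace Vale.Agent.N212

open Vale.Agent.P212 Vale.Agent.P212.H268 Vale.Agent.P212Z

theorem ratInj_of_square {G G' : Type 1} {K K' : Type} [AddCommGroup G] [AddCommGroup G']
    [AddCommGroup K] [AddCommGroup K'] {μ : G →+ K} {μ' : G' →+ K'} {ψ : K →+ K'} {κ : G →+ G'}
    (h : ψ.comp μ = μ'.comp κ) (hκ : Function.Injective κ) (h' : RatInj μ') : RatInj μ := by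
  have : Module.Flat ℤ ℚ := IsLocalization.flat ℚ (nonZeroDivisors ℤ)
  have h1 := Module.Flat.rTensor_preserves_injective_linearMap (M := ℚ) κ.toIntLinearMap hκ
  have h2 : ψ.toIntLinearMap ∘ₗ μ.toIntLinearMap = μ'.toIntLinearMap ∘ₗ κ.toIntLinearMap :=
    LinearMap.ext fun x => DFunLike.congr_fun h x
  have h3 := h'.comp h1
  rw [← LinearMap.coe_comp, ← LinearMap.rTensor_comp, ← h2, LinearMap.rTensor_comp,
    LinearMap.coe_comp] at h3
  exact h3.of_comp

theorem bigKer_of_square {G G' : Type 1} {K K' : Type} [AddCommGroup G] [AddCommGroup G']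
    [AddCommGroup K] [AddCommGroup K'] {μ : G →+ K} {μ' : G' →+ K'} {ψ : K →+ K'} {κ : G →+ G'}
    (h : ψ.comp μ = μ'.comp κ) (hκ : Function.Injective κ) (h' : BigKer μ) : BigKer μ' := by
  obtain ⟨y, h1, h2⟩ := h'
  refine ⟨fun a => κ (y a), h1.map' κ.toIntLinearMap (LinearMap.ker_eq_bot.2 hκ), fun a => ?_⟩
  have h3 := DFunLike.congr_fun h (y a)
  rw [AddMonoidHom.comp_apply, AddMonoidHom.comp_apply, h2, map_zero] at h3
  exact h3.symm

variable {X Y : Type} [MetricSpace X] [MetricSpace Y] [BddGeometry X] [BddGeometry Y]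

theorem hom_of_or {H A : Type} [NormedAddCommGroup H] [InnerProductSpace ℂ H] [CompleteSpace H]
    [NonUnitalCStarAlgebra A] {b : HilbertBasis (X × ℕ) ℂ H} {i : (H →L[ℂ] H) → A}
    (h : IsMaxRoe b i ∨ IsReducedRoe b i) : StarHomOn (IsRoeOp b) i :=
  h.elim (fun h => h.1) fun h => h.1

variable (X) in
theorem wellPosed [Nonempty X] : WellPosed X :=
  ⟨⟨_, _, _, _, inferInstance, inferInstance, _, _, isMaxRoe_model⟩,
    ⟨_, _, _, _, inferInstance, inferInstance, _, H35.redF X, H35.exists_reduced X⟩,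
    fun _ _ _ _ _ _ _ _ h => ⟨_, isAssembly_asm (hom_of_or h), fun _ h' =>
      P212T.assembly_unique h' (isAssembly_asm (hom_of_or h))⟩⟩

theorem fails_of_injective (ι : X ↪ Y) (h : Controlled ι)
    (hκ : Function.Injective (kxMap ι h)) (hX : Fails X) : Fails Y := by
  have := hX.1
  refine ⟨hX.1.map ι, fun H' A' _ _ _ _ b' i' hi' μ' hμ' => ?_⟩
  obtain ⟨H, A, _, _, _, _, b, i, hi⟩ := (wellPosed X).1
  obtain ⟨ψ, hψ⟩ := square_max ι h hi (hom_of_or hi') (isAssembly_asm hi.1) hμ'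
  obtain ⟨h1, h2⟩ := hX.2 H A b i (Or.inl hi) _ (isAssembly_asm hi.1)
  exact ⟨fun h3 => h1 (ratInj_of_square hψ hκ h3), bigKer_of_square hψ hκ h2⟩

theorem inj_of_injective [Nonempty X] (ι : X ↪ Y) (h : Controlled ι)
    (hκ : Function.Injective (kxMap ι h)) :
    (MaxInj Y → MaxInj X) ∧ (RedInj Y → RedInj X) := by
  have : Nonempty Y := ‹Nonempty X›.map ι
  refine ⟨fun hY H A _ _ _ _ b i hi μ hμ => ?_, fun hY H A _ _ _ _ b i hi μ hμ => ?_⟩
  · obtain ⟨H', A', _, _, _, _, b', i', hi'⟩ := (wellPosed Y).1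
    obtain ⟨ψ, hψ⟩ := square_max ι h hi hi'.1 hμ (isAssembly_asm hi'.1)
    exact ratInj_of_square hψ hκ (hY H' A' b' i' hi' _ (isAssembly_asm hi'.1))
  · obtain ⟨H', A', _, _, _, _, b', i', hi'⟩ := (wellPosed Y).2.1
    obtain ⟨ψ, hψ⟩ := square_red ι h hi hi' hμ (isAssembly_asm hi'.1)
    exact ratInj_of_square hψ hκ (hY H' A' b' i' hi' _ (isAssembly_asm hi'.1))

theorem fails_XT (τ : Tower) : Fails (XT τ) := by
  refine ⟨inferInstance, fun H A _ _ _ _ b i h μ hμ => ?_⟩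
  have hi := cpl_of (h.elim isRoeCompletion_of_isMaxRoe isRoeCompletion_of_isReducedRoe)
  rw [P212T.assembly_unique hμ (isAssembly_asm (hom_of_or h))]
  obtain ⟨ι, hι⟩ := exists_inj_real
  have h3 : LinearIndependent ℤ fun a => P212T.KX0.cls 2 (ofOld (wit τ (seg (ι a)))) :=
    (P212T.indepH hInv τ).comp ι hι
  have h4 : ∀ a, asm (hom_of_or h) (P212T.KX0.cls 2 (ofOld (wit τ (seg (ι a))))) = 0 := fun a =>
    (P212T.muH_cls hInv hi.hom 2 _).trans (mu_wit τ _ hi)
  refine ⟨not_inj_rat _ _ (h4 0) fun n hn => ?_, _, h3, h4⟩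
  exact linearIndependent_iff'.1 h3 {0} (fun _ => n) (by rw [Finset.sum_singleton]; exact hn) 0
    (Finset.mem_singleton_self _)

theorem controlled_of_isometry {f : X → Y} (hf : Isometry f) : Controlled f :=
  fun r => ⟨r, fun x x' h => by rwa [hf.dist_eq]⟩

theorem coarseEmb_of_isometry {f : X → Y} (hf : Isometry f) : CoarseEmb f :=
  ⟨controlled_of_isometry hf, fun r => ⟨r, fun x x' h => by rwa [hf.dist_eq] at h⟩⟩

theorem Controlled.comp {Z : Type} [MetricSpace Z] {f : X → Y} {g : Y → Z} (hg : Controlled g)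
    (hf : Controlled f) : Controlled (g ∘ f) := fun r => by
  obtain ⟨s, hs⟩ := hf r
  obtain ⟨t, ht⟩ := hg s
  exact ⟨t, fun x x' h => ht _ _ (hs _ _ h)⟩

theorem CoarseEmb.comp {Z : Type} [MetricSpace Z] {f : X → Y} {g : Y → Z} (hg : CoarseEmb g)
    (hf : CoarseEmb f) : CoarseEmb (g ∘ f) := ⟨hg.1.comp hf.1, fun t => by
  obtain ⟨s, hs⟩ := hg.2 t
  obtain ⟨r, hr⟩ := hf.2 s
  exact ⟨r, fun x x' h => hr _ _ (hs _ _ h)⟩⟩

/-- The vertices of the points, as an embedding. -/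
def rootEmb {W : Type} [MetricSpace W] (P : Num W) : W ↪ Vx P :=
  ⟨root P, fun _ _ h => congrArg Vx.x h⟩

theorem permanence [Nonempty X] (ι : X → Y) (ρ : Y → X) (hι : Controlled ι) (hρ : Controlled ρ)
    (hl : ∀ x, ρ (ι x) = x) (hf : ∀ x, (ρ ⁻¹' {x}).Finite) :
    (MaxInj Y → MaxInj X) ∧ (RedInj Y → RedInj X) ∧ (Fails X → Fails Y) := by
  let ι' : X ↪ Y := ⟨ι, Function.LeftInverse.injective hl⟩
  have h := kxMap_injective_of_retract ι' hι hρ hl hf
  exact ⟨(inj_of_injective ι' hι h).1, (inj_of_injective ι' hι h).2, fails_of_injective ι' hι h⟩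

theorem exists_isometric (Z : Type) [MetricSpace Z] [BddGeometry Z] [UnifDiscrete Z] :
    ∃ (Y : Type) (_ : MetricSpace Y) (_ : BddGeometry Y) (_ : UnifDiscrete Y) (f : Z → Y),
      Isometry f ∧ Fails Y := by
  obtain ⟨τ⟩ := exists_tower
  exact ⟨Wedge (XT τ) Z, inferInstance, inferInstance, inferInstance, _, isometry_wr,
    (permanence (Wedge.inl (XT τ) Z) (fold (xtRays τ)) (controlled_of_isometry isometry_wl)
      (controlled_fold _) (fun _ => rfl) (finite_fold _)).2.2 (fails_XT τ)⟩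

theorem exists_graph (Z : Type) [MetricSpace Z] [BddGeometry Z] :
    ∃ (Y : Type) (_ : MetricSpace Y) (_ : BddGeometry Y) (_ : UnifDiscrete Y) (f : Z → Y),
      IsSubcubicGraph Y ∧ CoarseEmb f ∧ Fails Y := by
  obtain ⟨τ⟩ := exists_tower
  obtain ⟨P⟩ := exists_num (W := Wedge (XT τ) Z)
  have h : Controlled ((Wedge.inl (XT τ) Z).trans (rootEmb P)) :=
    (coarseEmb_root P).1.comp (controlled_of_isometry isometry_wl)
  exact ⟨Vx P, inferInstance, inferInstance, inferInstance, _, vx_subcubic P,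
    (coarseEmb_root P).comp (coarseEmb_of_isometry isometry_wr),
    fails_of_injective _ h (kxMap_injective_of_retr _ h (exists_retr P (xtRays τ)
      (controlled_fold (xtRays τ)) (fun _ => rfl) (finite_fold _))) (fails_XT τ)⟩

theorem not_maxInj (h : Fails X) : ¬ MaxInj X := fun h' => by
  have := h.1
  obtain ⟨H, A, _, _, _, _, b, i, hi⟩ := (wellPosed X).1
  exact (h.2 H A b i (Or.inl hi) _ (isAssembly_asm hi.1)).1
    (h' H A b i hi _ (isAssembly_asm hi.1))

theorem not_q1 : ¬ ∀ (X : Type) [MetricSpace X] [BddGeometry X] [UnifDiscrete X], MaxInj X :=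
  fun h => by
    obtain ⟨τ⟩ := exists_tower
    exact not_maxInj (fails_XT τ) (h _)

end Vale.Agent.N212
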