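import Vale.Agent.N212.Graph
import Mathlib.Topology.MetricSpace.Gluing

/-! Rays in the basic counterexample, and the union of two spaces. -/

set_option linter.unusedSectionVars false

namespace Vale.Agent.N212

open Vale.Agent.P212 Vale.Agent.P212Z

theorem finite_low (τ : Tower) (n L : ℕ) : {x : XT τ | x.n = n ∧ x.l ≤ L}.Finite := by
  have h1 : (⋃ l ∈ {l : ℕ | l ≤ L}, Set.range
      fun p : Torus n × τ.G (min l (2 * n)) => (⟨n, l, p.1, p.2⟩ : XT τ)).Finite :=
    (Set.finite_le_nat L).biUnion fun l _ => Set.finite_range _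
  refine h1.subset ?_
  rintro ⟨m, l, w, y⟩ ⟨h2, h3⟩
  dsimp only at h2 h3
  subst h2
  exact Set.mem_iUnion₂.2 ⟨l, h3, (w, y), rfl⟩

/-- The vertical rays. -/
noncomputable def xtRays (τ : Tower) : Rays (XT τ) where
  ray x k := ⟨x.n, x.l + k, x.w, QuotientGroup.mk x.y.out⟩
  C := 1
  zero x := by
    obtain ⟨n, l, w, y⟩ := x
    exact congrArg (XT.mk n l w) (QuotientGroup.out_eq' y)
  step x j j' h h' := by
    have h1 : ∀ k : ℕ, dist (⟨x.n, x.l + (k + 1), x.w, QuotientGroup.mk x.y.out⟩ : XT τ)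
        ⟨x.n, x.l + k, x.w, QuotientGroup.mk x.y.out⟩ ≤ 1 := fun k => by
      have h2 := dist_le_iff_reach.2
        (Reach.of_adj (Adj.down (τ := τ) x.n (x.l + k) x.w (QuotientGroup.mk x.y.out)))
      rw [Nat.cast_one] at h2
      exact h2
    rcases (by omega : j = j' ∨ j = j' + 1 ∨ j' = j + 1) with rfl | rfl | rfl
    · rw [dist_self]
      exact zero_le_one
    · exact h1 j'
    · rw [dist_comm]
      exact h1 j
  fin z := by
    refine ((finite_low τ z.n z.l).prod (Set.finite_le_nat z.l)).subset ?_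
    rintro ⟨x, k⟩ h
    have h0 : (⟨x.n, x.l + k, x.w, QuotientGroup.mk x.y.out⟩ : XT τ) = z := h
    have h1 : x.n = z.n := (congrArg XT.n h0 :)
    have h2 : x.l + k = z.l := (congrArg XT.l h0 :)
    exact ⟨⟨h1, show x.l ≤ z.l by omega⟩, show k ≤ z.l by omega⟩

variable {X Z : Type} [MetricSpace X] [MetricSpace Z]

theorem Rays.dist_le (R : Rays X) (x : X) (j m : ℕ) :
    dist (R.ray x j) (R.ray x (j + m)) ≤ R.C * m := by
  induction m with
  | zero => simp
  | succ m ih =>
    refine (dist_triangle _ (R.ray x (j + m)) _).trans ?_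
    have h1 := R.step x (j + m) (j + (m + 1)) (by omega) (by omega)
    push_cast
    linarith

theorem Rays.dist_le' (R : Rays X) (x : X) {j j' m : ℕ} (h : j ≤ j' + m) (h' : j' ≤ j + m) :
    dist (R.ray x j) (R.ray x j') ≤ R.C * m := by
  have h0 : 0 ≤ R.C := dist_nonneg.trans (R.step x 0 0 (by omega) (by omega))
  rcases le_total j j' with h1 | h1
  · obtain ⟨k, rfl⟩ := Nat.exists_eq_add_of_le h1
    exact (R.dist_le x j k).trans (mul_le_mul_of_nonneg_left (Nat.cast_le.2 (by omega)) h0)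
  · obtain ⟨k, rfl⟩ := Nat.exists_eq_add_of_le h1
    rw [dist_comm]
    exact (R.dist_le x j' k).trans (mul_le_mul_of_nonneg_left (Nat.cast_le.2 (by omega)) h0)

/-- The disjoint union, with two base points at distance one. -/
def Wedge (X Z : Type) : Type := X ⊕ Z

noncomputable instance wedgeMetric : MetricSpace (Wedge X Z) := Metric.metricSpaceSum

/-- The first inclusion. -/
def Wedge.inl (X Z : Type) : X ↪ Wedge X Z := ⟨Sum.inl, Sum.inl_injective⟩

/-- The second inclusion. -/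
def Wedge.inr (X Z : Type) : Z ↪ Wedge X Z := ⟨Sum.inr, Sum.inr_injective⟩

theorem isometry_wl : Isometry (Wedge.inl X Z) := Isometry.of_dist_eq fun _ _ => rfl

theorem isometry_wr : Isometry (Wedge.inr X Z) := Isometry.of_dist_eq fun _ _ => rfl

instance [h : Nonempty X] : Nonempty (Wedge X Z) := h.map (Wedge.inl X Z)

theorem encard_preimage_ball {A Y : Type} [MetricSpace A] [MetricSpace Y] {f : A → Y}
    (hf : Isometry f) {R : ℝ} {N : ℕ} (h : ∀ a : A, (Metric.closedBall a (2 * R)).encard ≤ N)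
    (p : Y) : (f '' (f ⁻¹' Metric.closedBall p R)).encard ≤ N := by
  refine (Set.encard_image_le _ _).trans ?_
  rcases (f ⁻¹' Metric.closedBall p R).eq_empty_or_nonempty with h0 | ⟨a, ha⟩
  · rw [h0, Set.encard_empty]
    exact zero_le
  · refine (Set.encard_le_encard fun a' ha' => ?_).trans (h a)
    have h1 : dist (f a) p ≤ R := ha
    have h2 : dist (f a') p ≤ R := ha'
    rw [Metric.mem_closedBall, ← hf.dist_eq]
    have h3 := dist_triangle_right (f a') (f a) p
    linarith

instance wedgeBdd [BddGeometry X] [BddGeometry Z] : BddGeometry (Wedge X Z) := by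
  refine ⟨fun R => ?_⟩
  obtain ⟨N, hN⟩ := BddGeometry.bdd (X := X) (2 * R)
  obtain ⟨M, hM⟩ := BddGeometry.bdd (X := Z) (2 * R)
  refine ⟨N + M, fun p => ?_⟩
  have hsub : Metric.closedBall p R ⊆
      Wedge.inl X Z '' (Wedge.inl X Z ⁻¹' Metric.closedBall p R) ∪
      Wedge.inr X Z '' (Wedge.inr X Z ⁻¹' Metric.closedBall p R) := by
    rintro (a | a) h
    · exact Or.inl ⟨a, h, rfl⟩
    · exact Or.inr ⟨a, h, rfl⟩
  refine (Set.encard_le_encard hsub).trans ((Set.encard_union_le _ _).trans ?_)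
  rw [Nat.cast_add]
  exact add_le_add (encard_preimage_ball isometry_wl hN p) (encard_preimage_ball isometry_wr hM p)

instance wedgeUnif [UnifDiscrete X] [UnifDiscrete Z] : UnifDiscrete (Wedge X Z) := by
  obtain ⟨δ, hδ, h⟩ := UnifDiscrete.sep (X := X)
  obtain ⟨ε, hε, h'⟩ := UnifDiscrete.sep (X := Z)
  refine ⟨min (min δ ε) 1, lt_min (lt_min hδ hε) one_pos, ?_⟩
  rintro (a | a) (b | b) hab
  · exact ((min_le_left _ _).trans (min_le_left _ _)).trans (h a b fun e => hab (congrArg _ e))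
  · exact (min_le_right _ _).trans Metric.Sum.one_le_dist_inl_inr
  · exact (min_le_right _ _).trans Metric.Sum.one_le_dist_inr_inl
  · exact ((min_le_left _ _).trans (min_le_right _ _)).trans (h' a b fun e => hab (congrArg _ e))

/-- The base point. -/
noncomputable def bp {A : Type} (a : A) : A := Nonempty.some ⟨a⟩

/-- The retraction which sends the second space to a ray. -/
noncomputable def fold [h : Nonempty X] (R : Rays X) : Wedge X Z → X :=
  Sum.elim id fun z => R.ray h.some ⌊dist z (bp z)⌋₊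

variable [h : Nonempty X] (R : Rays X)

theorem controlled_fold : Controlled (fold R : Wedge X Z → X) := by
  intro r
  have h0 : 0 ≤ R.C := dist_nonneg.trans (R.step h.some 0 0 (by omega) (by omega))
  have h1 : 0 ≤ R.C * ((⌈r⌉₊ + 1 : ℕ) : ℝ) := mul_nonneg h0 (Nat.cast_nonneg _)
  have key : ∀ (a : X) (z : Z), dist a (bp a) + 1 + dist (bp z) z ≤ r →
      dist a (R.ray h.some ⌊dist z (bp z)⌋₊) ≤ r + R.C * ((⌈r⌉₊ + 1 : ℕ) : ℝ) := by
    intro a z haz
    have h2 : (0 : ℝ) ≤ dist a (bp a) := dist_nonneg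
    have h3 : (0 : ℝ) ≤ dist (bp z) z := dist_nonneg
    have h4 : ⌊dist z (bp z)⌋₊ ≤ ⌈r⌉₊ := by
      refine Nat.cast_le.1 ((Nat.floor_le dist_nonneg).trans (le_trans ?_ (Nat.le_ceil r)))
      rw [dist_comm]
      linarith
    have h5 := R.dist_le' h.some (j := 0) (j' := ⌊dist z (bp z)⌋₊) (m := ⌈r⌉₊ + 1)
      (by omega) (by omega)
    rw [R.zero] at h5
    have h6 := dist_triangle a h.some (R.ray h.some ⌊dist z (bp z)⌋₊)
    have h7 : dist a h.some = dist a (bp a) := rfl
    linarith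
  have key2 : ∀ z z' : Z, dist z z' ≤ r → ⌊dist z (bp z)⌋₊ ≤ ⌊dist z' (bp z')⌋₊ + (⌈r⌉₊ + 1) := by
    intro z z' hz
    have h2 := Nat.floor_le (dist_nonneg (x := z) (y := bp z))
    have h3 := Nat.lt_floor_add_one (dist z' (bp z'))
    have h4 := dist_triangle z z' (bp z)
    have h5 : dist z' (bp z) = dist z' (bp z') := rfl
    have h6 := Nat.le_ceil r
    refine Nat.cast_le.1 (?_ : ((_ : ℕ) : ℝ) ≤ _)
    push_cast
    linarith
  refine ⟨r + R.C * ((⌈r⌉₊ + 1 : ℕ) : ℝ), ?_⟩
  rintro (a | a) (b | b) hab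
  · exact le_trans hab (le_add_of_nonneg_right h1)
  · exact key a b hab
  · exact (dist_comm _ _).trans_le
      (key b a ((dist_comm (Wedge.inl X Z b) (Wedge.inr X Z a)).trans_le hab))
  · have h2 : dist a b ≤ r := hab
    have h3 := R.dist_le' h.some (key2 a b h2) (key2 b a (by rwa [dist_comm]))
    have h4 : 0 ≤ r := dist_nonneg.trans h2
    exact h3.trans (le_add_of_nonneg_left h4)

theorem finite_fold [BddGeometry Z] (x : X) : ((fold R : Wedge X Z → X) ⁻¹' {x}).Finite := by
  have h1 : ∀ k : ℕ, {z : Z | ⌊dist z (bp z)⌋₊ = k}.Finite := fun k => by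
    rcases isEmpty_or_nonempty Z with hZ | ⟨⟨z₀⟩⟩
    · exact Set.toFinite _
    · refine (finite_closedBall (bp z₀) (k + 1)).subset fun z hz => ?_
      have h2 := Nat.lt_floor_add_one (dist z (bp z))
      rw [show ⌊dist z (bp z)⌋₊ = k from hz] at h2
      exact h2.le
  have h2 : (insert (Wedge.inl X Z x) (Wedge.inr X Z ''
      ⋃ q ∈ {q : X × ℕ | R.ray q.1 q.2 = x}, {z : Z | ⌊dist z (bp z)⌋₊ = q.2})).Finite :=
    (((R.fin x).biUnion fun q _ => h1 q.2).image _).insert _
  refine h2.subset ?_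
  rintro (a | a) ha
  · exact Or.inl (congrArg _ ha)
  · exact Or.inr ⟨a, Set.mem_iUnion₂.2 ⟨(h.some, ⌊dist a (bp a)⌋₊), ha, rfl⟩, rfl⟩

end Vale.Agent.N212
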